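import Crest.Agent.N221.A1.PDefs

/-!
Row 221, step A1: the nonlinear part of the derivative of a composition (helper35).
-/

set_option autoImplicit false

open Set Metric Finset
open scoped ContDiff Nat Topology

namespace Crest.Agent.N221.PS

namespace CP

variable {E F : Type} [NormedAddCommGroup E] [NormedSpace ℝ E] [NormedAddCommGroup F]
  [NormedSpace ℝ F] {τ : ℝ}

/-- Leibniz bound at a point -/
lemma leib (n : ℕ) {f : ℝ → E →L[ℝ] F} {g : ℝ → E} (hf : ContDiffAt ℝ n f τ)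
    (hg : ContDiffAt ℝ n g τ) : ‖iteratedDeriv n (fun t => f t (g t)) τ‖ ≤
      ∑ i ∈ range (n + 1), n.choose i * ‖iteratedDeriv i f τ‖ * ‖iteratedDeriv (n - i) g τ‖ := by
  obtain ⟨s, h1, h2, h3⟩ := _root_.eventually_nhds_iff.1
    ((hf.eventually (by simp)).and (hg.eventually (by simp)))
  have := norm_iteratedFDerivWithin_clm_apply (fun t ht => (h1 t ht).1.contDiffWithinAt)
    (fun t ht => (h1 t ht).2.contDiffWithinAt) h2.uniqueDiffOn h3 le_rfl
  simpa only [iteratedFDerivWithin_of_isOpen _ h2 h3, norm_iteratedFDeriv_eq_norm_iteratedDeriv]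
    using this

lemma key (n : ℕ) {y : ℝ → E} {G : E → F} (hy : ContDiffAt ℝ ∞ y τ)
    (hG : ContDiffAt ℝ ∞ G (y τ)) :
    ‖iteratedDeriv (n + 1) (G ∘ y) τ - fderiv ℝ G (y τ) (iteratedDeriv (n + 1) y τ)‖ ≤
      ∑ i ∈ range n, n.choose (i + 1) * (‖iteratedDeriv (i + 1) (fderiv ℝ G ∘ y) τ‖ *
        ‖iteratedDeriv (n - i) y τ‖) := by
  have h1 : ContDiffAt ℝ n (fderiv ℝ G ∘ y) τ :=
    (hG.fderiv_right (m := n) (by exact_mod_cast le_top)).comp τ (hy.of_le (by exact_mod_cast le_top))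
  have h2 : ContDiffAt ℝ n (deriv y) τ := hy.derivWithin (by exact_mod_cast le_top)
  have e1 : deriv (G ∘ y) =ᶠ[𝓝 τ] fun t => (fderiv ℝ G ∘ y) t (deriv y t) := by
    filter_upwards [(hy.of_le (m := 1) (by simp)).eventually (by simp),
      hy.continuousAt.eventually ((hG.of_le (m := 1) (by simp)).eventually (by simp))] with t k1 k2
    exact ((k2.differentiableAt (by simp)).hasFDerivAt.comp_hasDerivAt t
      (k1.differentiableAt (by simp)).hasDerivAt).deriv
  have e2 : fderiv ℝ G (y τ) (iteratedDeriv n (deriv y) τ) =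
      iteratedDeriv n (fderiv ℝ G (y τ) ∘ deriv y) τ := by
    rw [iteratedDeriv, iteratedDeriv, ContinuousLinearMap.iteratedFDeriv_comp_left _ h2 le_rfl]
    rfl
  rw [iteratedDeriv_succ', iteratedDeriv_succ', e1.iteratedDeriv_eq, e2, ← iteratedDeriv_sub
    (h1.clm_apply h2) ((fderiv ℝ G (y τ)).contDiff.contDiffAt.comp τ h2)]
  have h3 := leib n (f := fun t => -fderiv ℝ G (y τ) + (fderiv ℝ G ∘ y) t)
    (contDiffAt_const.add h1) h2
  rw [sum_range_succ', iteratedDeriv_zero, Function.comp_apply, neg_add_cancel, norm_zero, mul_zero,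
    zero_mul, add_zero] at h3
  refine le_of_eq_of_le ?_ (h3.trans_eq (sum_congr rfl fun i hi => ?_))
  · congr 2
    funext t
    simp [sub_eq_neg_add]
  · rw [iteratedDeriv_const_add (Nat.succ_pos i), ← iteratedDeriv_succ', mul_assoc,
      show n - (i + 1) + 1 = n - i by have := mem_range.1 hi; omega]

lemma pow_log {w : ℝ} (h0 : 0 ≤ w) (h1 : w ≤ 1) {a b : ℕ} (ha : 1 ≤ a) (h : b ≤ a * 2) :
    w ^ Nat.log 2 a * w ≤ w ^ Nat.log 2 b := by
  rw [← pow_succ, ← Nat.log_mul_base one_lt_two (by omega)]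
  exact pow_le_pow_of_le_one h0 h1 (Nat.log_mono_right h)

end CP

open CP

theorem cpS : CPS := by
  intro n c hc
  induction n using Nat.strong_induction_on with
  | _ n ih =>
  choose! C hC1 hC using ih
  have p0 : ∀ i ∈ range n, 0 ≤ (n.choose (i + 1) : ℝ) * (C i + c) := fun i hi =>
    mul_nonneg (Nat.cast_nonneg _) (by linarith [hC1 i (mem_range.1 hi)])
  refine ⟨1 + ∑ i ∈ range n, n.choose (i + 1) * (C i + c), by linarith [sum_nonneg p0],
    fun E F _ _ _ _ y G τ w H hy hG w0 w1 H0 hc' hP => ?_⟩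
  have main : ∀ i ∈ range n, ‖iteratedDeriv (i + 1) (fderiv ℝ G ∘ y) τ‖ *
      ‖iteratedDeriv (n - i) y τ‖ ≤ (C i + c) * (H * w ^ Nat.log 2 (n + 1)) ∧
      ‖iteratedDeriv (i + 1) (fderiv ℝ G ∘ y) τ‖ * ‖iteratedDeriv (n - i) y τ‖ ≤ (C i + c) * w := by
    intro i hi
    rw [Finset.mem_range] at hi
    obtain ⟨k1, k2⟩ := hC i hi E (E →L[ℝ] F) y (fderiv ℝ G) τ w H hy (hG.fderiv_right (by simp)) w0
      w1 H0 (fun k a1 a2 => by rw [norm_iteratedFDeriv_fderiv]; exact hc' _ (by omega) (by omega))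
      fun j a1 a2 => hP j a1 (by omega)
    have k3 : ‖fderiv ℝ (fderiv ℝ G) (y τ)‖ ≤ c := by
      rw [← norm_iteratedFDeriv_one, norm_iteratedFDeriv_fderiv]
      exact hc' _ (by omega) (by omega)
    have k4 := (fderiv ℝ (fderiv ℝ G) (y τ)).le_of_opNorm_le k3 (iteratedDeriv (i + 1) y τ)
    obtain ⟨a1, a2⟩ := hP (i + 1) (by omega) (by omega)
    obtain ⟨b1, b2⟩ := hP (n - i) (by omega) (by omega)
    have k5 := norm_le_norm_sub_add (iteratedDeriv (i + 1) (fderiv ℝ G ∘ y) τ)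
      (fderiv ℝ (fderiv ℝ G) (y τ) (iteratedDeriv (i + 1) y τ))
    have c1 : ‖iteratedDeriv (i + 1) (fderiv ℝ G ∘ y) τ‖ ≤ (C i + c) * w := by nlinarith
    have c2 : ‖iteratedDeriv (i + 1) (fderiv ℝ G ∘ y) τ‖ ≤
        (C i + c) * (H * w ^ Nat.log 2 (i + 1)) := by nlinarith
    have c0 : 0 ≤ C i + c := by linarith [hC1 i hi]
    refine ⟨?_, (mul_le_mul c1 (b1.trans w1) (norm_nonneg _) (by positivity)).trans_eq (mul_one _)⟩
    rcases le_total (n - i) (i + 1) with e | e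
    · refine (mul_le_mul c2 b1 (norm_nonneg _) (by positivity)).trans ?_
      rw [mul_assoc, mul_assoc]
      gcongr
      exact pow_log w0 w1 (by omega) (by omega)
    · refine (mul_le_mul c1 b2 (norm_nonneg _) (by positivity)).trans ?_
      rw [mul_assoc, mul_left_comm w, mul_comm w]
      gcongr
      exact pow_log w0 w1 (by omega) (by omega)
  have fin : ∀ u : ℝ, 0 ≤ u → (∀ i ∈ range n, ‖iteratedDeriv (i + 1) (fderiv ℝ G ∘ y) τ‖ *
      ‖iteratedDeriv (n - i) y τ‖ ≤ (C i + c) * u) →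
      ‖iteratedDeriv (n + 1) (G ∘ y) τ - fderiv ℝ G (y τ) (iteratedDeriv (n + 1) y τ)‖ ≤
        (1 + ∑ i ∈ range n, n.choose (i + 1) * (C i + c)) * u := fun u hu h => by
    refine (key n hy hG).trans ?_
    rw [add_mul, sum_mul]
    refine le_add_of_nonneg_of_le (by linarith) (sum_le_sum fun i hi => ?_)
    rw [mul_assoc]
    exact mul_le_mul_of_nonneg_left (h i hi) (Nat.cast_nonneg _)
  exact ⟨fin _ (by positivity) fun i hi => (main i hi).1, fin _ w0 fun i hi => (main i hi).2⟩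

end Crest.Agent.N221.PS
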