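import Crest.Agent.N221.Ch.Defs
import Crest.Agent.N221.A

/-!
Row 221, step A1: THE FROZEN INTERFACES (helper90).

`PD m` = one Darboux chart `W ⊆ ZZ m`, the slopes `S false` of `E^s` and `S true` of `E^u`, and the
pseudogroup of returns: `R z T fl` says that `T` is the germ at `z` of a return (`fl = false`) or of
a return composed with the reversal (`fl = true`, antisymplectic, swaps `E^s` and `E^u`).
`C.pd f` is the instance given by the frame `f` of the atlas `Ch`.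

* `DyS` (85)            : `C.pd f` satisfies the axioms `PD.Ok`,
* `G0S` (91 et al.)     : `Cob` gives a smooth invariant relation bundle `PD.Flag`,
* `HuS` (34, 53, 1, 24) : `Ok`, `Flag` give `Smth` or `Pair` (pure Mathlib),
* `NpS` (41, 28, 11, ..): `Pair` is impossible (DEV + no branching),
* `UxS` (18, 71, 94)    : `Smth` gives `Sm G` (Lemma U + exit).
-/

set_option autoImplicit false

open Set Filter Topology Metric
open scoped ContDiff RealInnerProductSpace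
open Crest.GeometryTopology.Submanifold
open Crest.Agent.R241.DDefs Crest.Agent.R241.D2
open Crest.Agent.R208.J Crest.Agent.R208.L

noncomputable section

namespace Crest.Agent.N221

/-- `Y` is a smooth family of subspaces on `O`: range of a smooth family of projections -/
def SmB {D X : Type} [NormedAddCommGroup D] [NormedSpace ℝ D] [NormedAddCommGroup X]
    [NormedSpace ℝ X] (Y : D → Submodule ℝ X) (O : Set D) : Prop :=
  ∃ p : D → X →L[ℝ] X, ContDiffOn ℝ ∞ p O ∧ ∀ z ∈ O, (∀ x, p z x ∈ Y z) ∧ ∀ x ∈ Y z, p z x = x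

/-- `m`-linear forms on `ZZ m` -/
abbrev Fm (m : ℕ) := ContinuousMultilinearMap ℝ (fun _ : Fin m => ZZ m) ℝ

/-- the form `v ↦ det (p_i - A q_i)`, which kills the graph of `A` -/
def dform {m : ℕ} (A : Euc m →L[ℝ] Euc m) (v : Fin m → ZZ m) : ℝ :=
  Matrix.det (Matrix.of fun i j => ((v i).2 - A (v i).1) j)

/-- the standard basis of the graph of `A` -/
def gbas {m : ℕ} (A : Euc m →L[ℝ] Euc m) (i : Fin m) : ZZ m :=
  (EuclideanSpace.single i 1, A (EuclideanSpace.single i 1))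

/-- chart, slopes (`false` = stable, `true` = unstable), germs of returns -/
structure PD (m : ℕ) where
  W : Set (ZZ m)
  S : Bool → ZZ m → (Euc m →L[ℝ] Euc m)
  R : ZZ m → (ZZ m → ZZ m) → Bool → Prop

namespace PD

variable {m : ℕ} (P : PD m)

/-- `E false z = E^s`, `E true z = E^u` -/
def E (i : Bool) (z : ZZ m) : Submodule ℝ (ZZ m) :=
  LinearMap.graph (P.S i z : Euc m →ₗ[ℝ] Euc m)

/-- the projection on `E^u` along `E^s` -/
def pi (z : ZZ m) : ZZ m →L[ℝ] ZZ m :=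
  ((ContinuousLinearMap.id ℝ (Euc m)).prod (P.S true z)) ∘L
    Ring.inverse (P.S true z - P.S false z) ∘L
      (ContinuousLinearMap.snd ℝ (Euc m) (Euc m) -
        P.S false z ∘L ContinuousLinearMap.fst ℝ (Euc m) (Euc m))

/-- the axioms -/
structure Ok : Prop where
  isOpen : IsOpen P.W
  ne : P.W.Nonempty
  cont : ∀ i, ContinuousOn (P.S i) P.W
  symm : ∀ i, ∀ z ∈ P.W, ∀ x y, ⟪P.S i z x, y⟫ = ⟪x, P.S i z y⟫
  unit : ∀ z ∈ P.W, IsUnit (P.S true z - P.S false z)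
  leaf : ∀ i, ∀ z ∈ P.W, ∃ F : Euc m → Euc m, ContDiff ℝ ∞ F ∧ F z.1 = z.2 ∧
    ∀ᶠ q in 𝓝 z.1, HasFDerivAt F (P.S i (q, F q)) q
  mem : ∀ z T fl, P.R z T fl → z ∈ P.W ∧ T z ∈ P.W
  smooth : ∀ z T fl, P.R z T fl → ContDiffAt ℝ ∞ T z
  ev : ∀ z T fl, P.R z T fl → ∀ᶠ y in 𝓝 z, P.R y T fl
  congr : ∀ z T T' fl, P.R z T fl → T' =ᶠ[𝓝 z] T → P.R z T' fl
  comp : ∀ z T T' fl fl', P.R z T fl → P.R (T z) T' fl' → P.R z (T' ∘ T) (xor fl fl')
  inv : ∀ z T fl, P.R z T fl → ∃ T', P.R (T z) T' fl ∧ T' ∘ T =ᶠ[𝓝 z] id ∧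
    T ∘ T' =ᶠ[𝓝 (T z)] id
  sp : ∀ z T fl, P.R z T fl → ∀ v w,
    om (fderiv ℝ T z v) (fderiv ℝ T z w) = (bif fl then -1 else 1) * om v w
  map : ∀ z T fl i, P.R z T fl → ∀ v ∈ P.E i z, fderiv ℝ T z v ∈ P.E (xor i fl) (T z)
  per : ∀ O, IsOpen O → O.Nonempty → O ⊆ P.W → ∃ z ∈ O, ∃ T, P.R z T false ∧ T z = z ∧
    (∀ v ∈ P.E false z, 2 * ‖(fderiv ℝ T z v).1‖ ≤ ‖v.1‖) ∧
    ∀ v ∈ P.E true z, 2 * ‖v.1‖ ≤ ‖(fderiv ℝ T z v).1‖
  trans : ∀ fl O O', IsOpen O → O.Nonempty → O ⊆ P.W → IsOpen O' → O'.Nonempty → O' ⊆ P.W →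
    ∃ z ∈ O, ∃ T, P.R z T fl ∧ T z ∈ O'

/-- OUTPUT OF G0.  `ker (A z)` is the annihilator of the relation bundle of `(σ⁻, 1)`: it contains
`(σ⁻, 1)`, it is killed by `(σ⁺, -1)`, it is invariant under the returns (up to the weight). -/
def Flag : Prop := ∃ (O : Set (ZZ m)) (r : ℕ) (A : ZZ m → (Fm m × ℝ →L[ℝ] Euc r)),
  IsOpen O ∧ O.Nonempty ∧ O ⊆ P.W ∧ ContDiffOn ℝ ∞ A O ∧
  (∀ z ∈ O, ∃ (φ : Fm m) (t : ℝ), (∀ v, φ v = dform (P.S true z) v) ∧ A z (φ, t) = 0) ∧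
  (∀ z ∈ O, ∃ c : ℝ, c ≠ 0 ∧ ∀ φ t, A z (φ, t) = 0 → t = c * φ (gbas (P.S false z))) ∧
  ∀ z ∈ O, ∀ T, P.R z T false → T z ∈ O → ∃ c : ℝ, c ≠ 0 ∧ ∀ (φ : Fm m) (t : ℝ),
    A (T z) (φ, t) = 0 ↔ A z (φ.compContinuousLinearMap fun _ => fderiv ℝ T z, c * t) = 0

/-- first output of HULL: the splitting is smooth on an open set -/
def Smth : Prop := ∃ O : Set (ZZ m), IsOpen O ∧ O.Nonempty ∧ O ⊆ P.W ∧ ContDiffOn ℝ ∞ P.pi O

/-- `Y true ⊆ E^u`, `Y false ⊆ E^s` smooth, nonzero, `ω`-orthogonal, invariant, and `Y (!i)` is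
characteristic for `(Y i)^ω`: `d (i_ζ ω) (u, v) = 0` -/
structure IsPair (O : Set (ZZ m)) (Y : Bool → ZZ m → Submodule ℝ (ZZ m)) : Prop where
  isOpen : IsOpen O
  ne : O.Nonempty
  sub : O ⊆ P.W
  smooth : ∀ i, SmB (Y i) O
  ne_bot : ∀ i, ∀ z ∈ O, Y i z ≠ ⊥
  le : ∀ i, ∀ z ∈ O, Y i z ≤ P.E i z
  orth : ∀ z ∈ O, ∀ u ∈ Y true z, ∀ v ∈ Y false z, om u v = 0
  map : ∀ i, ∀ z ∈ O, ∀ T fl, P.R z T fl → T z ∈ O → ∀ v ∈ Y i z,
    fderiv ℝ T z v ∈ Y (xor i fl) (T z)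
  ch : ∀ i, ∀ z ∈ O, ∀ ζ : ZZ m → ZZ m, DifferentiableAt ℝ ζ z → (∀ᶠ y in 𝓝 z, ζ y ∈ Y i y) →
    ∀ u ∈ Y (!i) z, ∀ v, (∀ y ∈ Y i z, om y v = 0) →
      om (fderiv ℝ ζ z u) v = om (fderiv ℝ ζ z v) u

/-- second output of HULL -/
def Pair : Prop := ∃ O Y, P.IsPair O Y

end PD

/-- optional reversal of a frame -/
def fb {n N m : ℕ} (fl : Bool) (f : FF n N m) : FF n N m := bif fl then fp f else f

/-- optional reversal in the chart -/
def flb {m : ℕ} (fl : Bool) (z : ZZ m) : ZZ m := bif fl then flp z else z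

/-- the pseudogroup of the chart `f` -/
def Cov.pd {n N m : ℕ} {a : ℝ} {S : Set (Euc N)} {G : Geo n N (-(a ^ 2)) S} (C : Cov G)
    (f : FF n N m) : PD m where
  W := ball 0 (C.rr m)
  S i := bif i then C.Su f else C.Ss f
  R z T fl := ∃ g, C.Deck g ∧ z ∈ C.dm f (fg g (fb fl f)) ∧
    T =ᶠ[𝓝 z] fun y => flb fl (C.Tf f (fg g (fb fl f)) y)

/-- dynamical axioms -/
def DyS : Prop := ∀ (n N m : ℕ) (a : ℝ) (S : Set (Euc N)) (G : Geo n N (-(a ^ 2)) S) (C : Cov G)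
  (f : FF n N m), Hyp n N a S → m + 1 = n → C.Frm f → (C.pd f).Ok

/-- the relation bundle is smooth on an open set of some chart -/
def G0S : Prop := ∀ (n N m : ℕ) (a : ℝ) (S : Set (Euc N)) (G : Geo n N (-(a ^ 2)) S) (C : Cov G),
  Hyp n N a S → m + 1 = n → Cob G → ∃ f : FF n N m, C.Frm f ∧ (C.pd f).Flag

/-- the hull dichotomy -/
def HuS : Prop := ∀ (m : ℕ) (P : PD m), P.Ok → P.Flag → P.Smth ∨ P.Pair

/-- no branching -/
def NpS : Prop := ∀ (n N m : ℕ) (a : ℝ) (S : Set (Euc N)) (G : Geo n N (-(a ^ 2)) S) (C : Cov G)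
  (f : FF n N m), Hyp n N a S → m + 1 = n → Cob G → C.Frm f → (C.pd f).Ok → ¬ (C.pd f).Pair

/-- Lemma U and exit -/
def UxS : Prop := ∀ (n N m : ℕ) (a : ℝ) (S : Set (Euc N)) (G : Geo n N (-(a ^ 2)) S) (C : Cov G)
  (f : FF n N m), Hyp n N a S → m + 1 = n → Cob G → C.Frm f → (C.pd f).Smth → Sm G

theorem a1_of (cov : CovS) (dy : DyS) (g0 : G0S) (hu : HuS) (np : NpS) (ux : UxS) : A1S := by
  intro n N a S G H hc
  obtain ⟨C⟩ := cov n N a S G H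
  have hm : (n - 1) + 1 = n := by have := H.hn; omega
  obtain ⟨f, hf, hF⟩ := g0 n N (n - 1) a S G C H hm hc
  have hO := dy n N (n - 1) a S G C f H hm hf
  rcases hu _ _ hO hF with h | h
  · exact ux n N (n - 1) a S G C f H hm hc hf h
  · exact (np n N (n - 1) a S G C f H hm hc hf hO h).elim

end Crest.Agent.N221
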