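import Crest.Agent.N221.A1.Bas
import Crest.Agent.N221.Dy.Sp
import Crest.Agent.N221.Ch.Unif
import Crest.Agent.N221.Ch.Sym

/-! Row 221, step A1 (helper80): the pseudogroup of a chart satisfies the axioms `PD.Ok`. -/

set_option autoImplicit false
set_option linter.unusedSectionVars false
set_option linter.unusedVariables false

open Set Filter Topology Metric
open scoped ContDiff RealInnerProductSpace
open Crest.GeometryTopology.Submanifold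
open Crest.Agent.R241.DDefs Crest.Agent.R241.D2
open Crest.Agent.R208.J Crest.Agent.R208.L

noncomputable section

namespace Crest.Agent.N221

/-- optional reversal of a geodesic -/
def swb {α : Type} (fl : Bool) (p : α × α) : α × α := bif fl then p.swap else p

lemma swb_swb {α : Type} (fl fl' : Bool) (p : α × α) :
    swb fl (swb fl' p) = swb (xor fl fl') p := by cases fl <;> cases fl' <;> rfl

lemma swb_self {α : Type} (fl : Bool) (p : α × α) : swb fl (swb fl p) = p := by cases fl <;> rfl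

lemma swb_GG {n : ℕ} (fl : Bool) {p : Euc n × Euc n} (h : p ∈ GG n) : swb fl p ∈ GG n := by
  cases fl
  · exact h
  · exact ⟨h.2.1, h.1, h.2.2.symm⟩

lemma norm_flb {m : ℕ} (fl : Bool) (z : ZZ m) : ‖flb fl z‖ = ‖z‖ := by
  cases fl
  · rfl
  · exact norm_flp z

lemma flb_flb {m : ℕ} (fl : Bool) (z : ZZ m) : flb fl (flb fl z) = z := by
  cases fl
  · rfl
  · exact flp_flp z

/-- `flb` as a linear map -/
def flL (m : ℕ) (fl : Bool) : ZZ m →L[ℝ] ZZ m :=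
  bif fl then (ContinuousLinearMap.fst ℝ _ _).prod (-ContinuousLinearMap.snd ℝ _ _)
  else ContinuousLinearMap.id ℝ _

lemma flL_apply {m : ℕ} (fl : Bool) (z : ZZ m) : flL m fl z = flb fl z := by cases fl <;> rfl

lemma flb_eq (m : ℕ) (fl : Bool) : flb fl = ⇑(flL m fl) := funext fun z => (flL_apply fl z).symm

lemma om_flb {m : ℕ} (fl : Bool) (z w : ZZ m) :
    om (flb fl z) (flb fl w) = (bif fl then -1 else 1) * om z w := by
  cases fl
  · exact (one_mul _).symm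
  · exact (om_flp z w).trans (neg_one_mul _).symm

namespace Cov

variable {n N m : ℕ} {a : ℝ} {S : Set (Euc N)} {G : Geo n N (-(a ^ 2)) S} (C : Cov G)
variable {f : FF n N m} {z : ZZ m} {g : Euc n → Euc n} {fl : Bool} {T : ZZ m → ZZ m}

lemma Frm.fb (hf : C.Frm f) (fl : Bool) : C.Frm (fb fl f) := by
  cases fl
  · exact hf
  · exact hf.fp C

lemma act2_swb (g : Euc n → Euc n) (fl : Bool) (p : Euc n × Euc n) :
    swb fl (C.act2 g p) = C.act2 g (swb fl p) := by cases fl <;> rfl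

lemma ge_fb (f : FF n N m) (fl : Bool) (z : ZZ m) :
    C.ge (fb fl f) (flb fl z) = swb fl (C.ge f z) := by
  cases fl
  · rfl
  · exact C.ge_fp f z

lemma Su_fp (f : FF n N m) (z : ZZ m) : C.Su (fp f) (flp z) = -C.Ss f z := by
  rw [Su, C.ge_fp]; rfl

/-- the return through the deck map `g` -/
def rt (f : FF n N m) (g : Euc n → Euc n) (fl : Bool) (y : ZZ m) : ZZ m :=
  flb fl (C.Tf f (fg g (fb fl f)) y)

lemma R_rt (hg : C.Deck g) (hz : z ∈ C.dm f (fg g (fb fl f))) : (C.pd f).R z (C.rt f g fl) fl :=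
  ⟨g, hg, hz, EventuallyEq.rfl⟩

lemma R_Tf (hg : C.Deck g) (hz : z ∈ C.dm f (fg g f)) : (C.pd f).R z (C.Tf f (fg g f)) false :=
  ⟨g, hg, hz, EventuallyEq.rfl⟩

lemma mem_pd : z ∈ (C.pd f).W ↔ ‖z‖ < C.rr m := mem_ball_zero_iff

variable (H : Hyp n N a S) (hm : m + 1 = n) (hf : C.Frm f)
include H hm hf

lemma ge_fgb (hg : C.Deck g) (fl : Bool) (hz : ‖z‖ < C.rr m) :
    C.ge (fg g (fb fl f)) (flb fl z) = C.act2 g (swb fl (C.ge f z)) := by
  rw [C.ge_fg H (hf.fb C fl) hg (C.Dm_lt H hm (hf.fb C fl) (by rwa [norm_flb])), C.ge_fb]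
  rfl

lemma rt_of (hg : C.Deck g) {w : ZZ m} (hz : ‖z‖ < C.rr m) (hw : ‖w‖ < C.rr m)
    (h : C.act2 g (swb fl (C.ge f w)) = C.ge f z) :
    z ∈ C.dm f (fg g (fb fl f)) ∧ C.rt f g fl z = w := by
  obtain ⟨h1, h2⟩ := C.mem_dm H hm ((hf.fb C fl).fg C hg) hz (z' := flb fl w) (by rwa [norm_flb])
    (by rw [C.ge_fgb H hm hf hg fl hw, h])
  exact ⟨h1, by rw [rt, h2, flb_flb]⟩

lemma rt_spec (hg : C.Deck g) (hz : z ∈ C.dm f (fg g (fb fl f))) :
    ‖C.rt f g fl z‖ < C.rr m ∧ C.act2 g (swb fl (C.ge f (C.rt f g fl z))) = C.ge f z := by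
  obtain ⟨h1, h2⟩ := C.Tf_spec H hm ((hf.fb C fl).fg C hg) hz
  have h3 : ‖C.rt f g fl z‖ < C.rr m := by rwa [rt, norm_flb]
  exact ⟨h3, by rw [← C.ge_fgb H hm hf hg fl h3, rt, flb_flb, h2]⟩

/-- returns, read on the space of geodesics -/
lemma R_iff : (C.pd f).R z T fl ↔ ∃ g, C.Deck g ∧ ∀ᶠ y in 𝓝 z, ‖y‖ < C.rr m ∧ ‖T y‖ < C.rr m ∧
    C.act2 g (swb fl (C.ge f (T y))) = C.ge f y := by
  refine exists_congr fun g => and_congr_right fun hg => ⟨fun ⟨h1, h2⟩ => ?_, fun h => ?_⟩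
  · filter_upwards [h2, (C.isOpen_dm H hm hf ((hf.fb C fl).fg C hg)).mem_nhds h1] with y e hy
    rw [e]
    exact ⟨hy.1, C.rt_spec H hm hf hg hy⟩
  · have h' := h.mono fun y hy => C.rt_of H hm hf hg hy.1 hy.2.1 hy.2.2
    exact ⟨h'.self_of_nhds.1, h'.mono fun y hy => hy.2.symm⟩

lemma R_smooth (h : (C.pd f).R z T fl) : ContDiffAt ℝ ∞ T z := by
  obtain ⟨g, hg, h1, h2⟩ := h
  refine ContDiffAt.congr_of_eventuallyEq ?_ h2
  rw [flb_eq]
  exact (flL m fl).contDiff.contDiffAt.comp z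
    (C.contDiffAt_Tf H hm hf ((hf.fb C fl).fg C hg) h1)

lemma fderiv_R (hg : C.Deck g) (hz : z ∈ C.dm f (fg g (fb fl f)))
    (h : T =ᶠ[𝓝 z] fun y => flb fl (C.Tf f (fg g (fb fl f)) y)) (v : ZZ m) :
    fderiv ℝ T z v = flb fl (fderiv ℝ (C.Tf f (fg g (fb fl f))) z v) := by
  have h1 := ((C.contDiffAt_Tf H hm hf ((hf.fb C fl).fg C hg) hz).differentiableAt
    (by simp)).hasFDerivAt
  rw [h.fderiv_eq, flb_eq]
  exact congrArg (· v) ((flL m fl).hasFDerivAt.comp z h1).fderiv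

lemma R_comp {T' : ZZ m → ZZ m} {fl' : Bool} (h : (C.pd f).R z T fl)
    (h' : (C.pd f).R (T z) T' fl') : (C.pd f).R z (T' ∘ T) (xor fl fl') := by
  have c := (C.R_smooth H hm hf h).continuousAt
  obtain ⟨g, hg, h⟩ := (C.R_iff H hm hf).1 h
  obtain ⟨g', hg', h'⟩ := (C.R_iff H hm hf).1 h'
  refine (C.R_iff H hm hf).2 ⟨g ∘ g', hg.comp C hg', ?_⟩
  filter_upwards [h, c.eventually h'] with y h1 h2
  refine ⟨h1.1, h2.2.1, ?_⟩
  rw [Function.comp_apply (f := T'),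
    C.act2_comp H hg hg' (swb_GG _ (C.ge_GG H hf (C.Dm_lt H hm hf h2.2.1))), ← swb_swb,
    ← C.act2_swb, h2.2.2, h1.2.2]

lemma R_inv (h : (C.pd f).R z T fl) : ∃ T', (C.pd f).R (T z) T' fl ∧ T' ∘ T =ᶠ[𝓝 z] id ∧
    T ∘ T' =ᶠ[𝓝 (T z)] id := by
  obtain ⟨g, hg, h⟩ := (C.R_iff H hm hf).1 h
  obtain ⟨k, hk, i1, i2⟩ := hg.inv C
  have e : ∀ y, ‖y‖ < C.rr m ∧ ‖T y‖ < C.rr m ∧ C.act2 g (swb fl (C.ge f (T y))) = C.ge f y →
      C.act2 k (swb fl (C.ge f y)) = C.ge f (T y) := fun y hy => by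
    rw [← hy.2.2, C.act2_swb, swb_self,
      C.act2_inv H hg hk i1 (C.ge_GG H hf (C.Dm_lt H hm hf hy.2.1))]
  have h1 := h.mono fun y hy => C.rt_of H hm hf hk hy.2.1 hy.1 (e y hy)
  have hR := C.R_rt hk h1.self_of_nhds.1
  refine ⟨C.rt f k fl, hR, h1.mono fun y hy => hy.2, ?_⟩
  have c : Tendsto (C.rt f k fl) (𝓝 (T z)) (𝓝 z) := by
    have := (C.R_smooth H hm hf hR).continuousAt.tendsto
    rwa [h1.self_of_nhds.2] at this
  have r := C.rr_pos H hm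
  filter_upwards [c.eventually h,
    (C.isOpen_dm H hm hf ((hf.fb C fl).fg C hk)).mem_nhds h1.self_of_nhds.1] with w h2 h3
  exact (C.rad H hm).inj f hf (mem_closedBall_zero_iff.2 (h2.2.1.le.trans (by linarith)))
    (mem_closedBall_zero_iff.2 (h3.1.le.trans (by linarith)))
    ((e _ h2).symm.trans (C.rt_spec H hm hf hk h3).2)

lemma R_map (i : Bool) (h : (C.pd f).R z T fl) {v : ZZ m} (hv : v ∈ (C.pd f).E i z) :
    fderiv ℝ T z v ∈ (C.pd f).E (xor i fl) (T z) := by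
  obtain ⟨g, hg, h1, h2⟩ := h
  have hf' := (hf.fb C fl).fg C hg
  have d := C.Dm_lt H hm (hf.fb C fl) (C.Tf_spec H hm hf' h1).1
  have e : v = (v.1, (C.pd f).S i z v.1) := Prod.ext rfl (PD.mem_E.1 hv)
  rw [C.fderiv_R H hm hf hg h1 h2, h2.self_of_nhds, e, PD.mem_E]
  cases i
  · erw [C.fderiv_Tf_s H hm hf hf' h1, C.Ss_fg H (hf.fb C fl) hg d]
    cases fl
    · rfl
    · erw [← flp_flp (C.Tf f _ z), C.Ss_fp]
      exact neg_neg _
  · erw [C.fderiv_Tf_u H hm hf hf' h1, C.Su_fg H (hf.fb C fl) hg d]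
    cases fl
    · rfl
    · erw [← flp_flp (C.Tf f _ z), C.Su_fp]
      exact neg_neg _

/-- rates of a transition on `E^s`, `E^u` -/
lemma Tf_rate {f' : FF n N m} (hf' : C.Frm f') (hz : z ∈ C.dm f f') (ht : 0 ≤ C.tm f f' z)
    (e : Euc m) :
    ‖(fderiv ℝ (C.Tf f f') z (e, C.Ss f z e)).1‖ ≤ 8 * Real.exp (-(a * C.tm f f' z)) * ‖e‖ ∧
    Real.exp (a * C.tm f f' z) * ‖e‖ ≤ 8 * ‖(fderiv ℝ (C.Tf f f') z (e, C.Su f z e)).1‖ := by
  obtain ⟨b, -, hb⟩ := C.norm_lf H hm (m := m)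
  have r := C.rr_pos H hm
  have d := C.Dm_lt H hm hf hz.1
  have n2 : ‖z‖ ≤ 2 * C.rr m := by linarith [hz.1]
  have h1 := hb f f' _ z.1 e hf hf' ((C.rad H hm).front f hf z n2)
  have h2 := hb (fp f) (fp f') _ z.1 e (hf.fp C) (hf'.fp C) (C.back H hm hf n2)
  rw [C.eq_gs H hf d] at h1
  rw [C.gs_fp, C.eq_gu H hf d, (C.Tf_fp H hm hf hf' hz).2] at h2
  rw [C.fderiv_Tf_s H hm hf hf' hz, C.fderiv_Tf_u H hm hf hf' hz]
  refine ⟨((h1 hz).1 ht).1, ?_⟩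
  have := ((h2 (C.dm_fp.2 hz)).2 (by linarith)).2
  rwa [mul_neg, neg_neg] at this

lemma pd_per {O : Set (ZZ m)} (hO : IsOpen O) (hne : O.Nonempty) (hs : O ⊆ (C.pd f).W) :
    ∃ z ∈ O, ∃ T, (C.pd f).R z T false ∧ T z = z ∧
      (∀ v ∈ (C.pd f).E false z, 2 * ‖(fderiv ℝ T z v).1‖ ≤ ‖v.1‖) ∧
      ∀ v ∈ (C.pd f).E true z, 2 * ‖v.1‖ ≤ ‖(fderiv ℝ T z v).1‖ := by
  obtain ⟨z, hz⟩ := hne
  obtain ⟨z, hz, hr, g, l, hA⟩ := C.per_ch H hm hf (C.mem_pd.1 (hs hz)) (hO.mem_nhds hz)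
  have ha := mul_pos H.a_pos hA.pos
  obtain ⟨j, hj⟩ := exists_nat_ge (16 / (a * l))
  have hA' := hA.iterate C j
  obtain ⟨h1, h2, h3⟩ := C.axis_ch H hm hf hr hA'
  have h4 : 16 ≤ Real.exp (a * ((j + 1) * l)) := by
    rw [div_le_iff₀ ha] at hj
    nlinarith [Real.add_one_le_exp (a * ((j + 1) * l))]
  have h5 : Real.exp (-(a * ((j + 1) * l))) ≤ 1 / 16 := by
    rw [Real.exp_neg, one_div]; exact inv_anti₀ (by norm_num) h4
  have h6 := fun e => C.Tf_rate H hm hf (hf.fg C hA'.deck) h1 (by rw [h3]; exact hA'.pos.le) e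
  rw [h3] at h6
  refine ⟨z, hz, _, C.R_Tf hA'.deck h1, h2, fun v hv => ?_, fun v hv => ?_⟩
  · have e : v = (v.1, C.Ss f z v.1) := Prod.ext rfl (PD.mem_E.1 hv)
    have := (h6 v.1).1
    rw [← e] at this
    nlinarith [norm_nonneg v.1]
  · have e : v = (v.1, C.Su f z v.1) := Prod.ext rfl (PD.mem_E.1 hv)
    have := (h6 v.1).2
    rw [← e] at this
    nlinarith [norm_nonneg v.1]

lemma pd_trans (fl : Bool) {O O' : Set (ZZ m)} (hO : IsOpen O) (hne : O.Nonempty)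
    (hs : O ⊆ (C.pd f).W) (hO' : IsOpen O') (hne' : O'.Nonempty) (hs' : O' ⊆ (C.pd f).W) :
    ∃ z ∈ O, ∃ T, (C.pd f).R z T fl ∧ T z ∈ O' := by
  obtain ⟨z, hz⟩ := hne
  obtain ⟨z', hz'⟩ := hne'
  obtain ⟨g, hg, w, h1, h2, h3⟩ := C.trans_ch H hm hf (hf.fb C fl) (C.mem_pd.1 (hs hz))
    (z' := flb fl z') (by rw [norm_flb]; exact C.mem_pd.1 (hs' hz')) (hO.mem_nhds hz)
    (V' := flb fl ⁻¹' O') ((hO'.preimage (by rw [flb_eq]; exact (flL m fl).continuous)).mem_nhds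
      (by rwa [mem_preimage, flb_flb]))
  exact ⟨w, h1, _, C.R_rt hg h2, h3⟩

lemma pd_leaf (i : Bool) (hz : ‖z‖ < C.rr m) : ∃ F : Euc m → Euc m, ContDiff ℝ ∞ F ∧
    F z.1 = z.2 ∧ ∀ᶠ q in 𝓝 z.1, HasFDerivAt F ((C.pd f).S i (q, F q)) q := by
  have r := C.rr_pos H hm
  have d := C.Dm_lt H hm hf hz
  have n2 : ‖z‖ ≤ 2 * C.rr m := by linarith
  have hG := C.ge_GG H hf d
  have ev : ∀ᶠ q in 𝓝 z.1, ‖q‖ ≤ 2 * C.rr m :=
    (continuous_norm.continuousAt.eventually (gt_mem_nhds (a := 2 * C.rr m)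
      (by linarith [norm_fst_le z]))).mono fun _ h => h.le
  cases i
  · refine ⟨C.pq f (C.ge f z).1, C.contDiff_pq H (bas_ne0 hG.1) f,
      congrArg Prod.snd (C.eq_gs H hf d), ev.mono fun q hq => ?_⟩
    show HasFDerivAt _ (C.HH f (C.ge f (C.gs f (C.ge f z).1 q)).1 q) q
    rw [(C.ge_gs H hm hf ((C.rad H hm).front f hf z n2) hq).2.2]
    exact C.hasFDerivAt_pq H (bas_ne0 hG.1) f q
  · refine ⟨fun q => -C.pq f (C.ge f z).2 q, (C.contDiff_pq H (bas_ne0 hG.2.1) f).neg,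
      congrArg Prod.snd (C.eq_gu H hf d), ev.mono fun q hq => ?_⟩
    show HasFDerivAt _ (-C.HH f (C.ge f (C.gu f (C.ge f z).2 q)).2 q) q
    rw [(C.ge_gu H hm hf (C.back H hm hf n2) hq).2.2]
    exact (C.hasFDerivAt_pq H (bas_ne0 hG.2.1) f q).neg

lemma pd_unit (hz : ‖z‖ ≤ 2 * C.rr m) : IsUnit (C.Su f z - C.Ss f z) := by
  refine ContinuousLinearMap.isUnit_iff_isUnit_toLinearMap.2
    ((LinearMap.isUnit_iff_ker_eq_bot _).2 (LinearMap.ker_eq_bot'.2 fun e he => ?_))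
  obtain ⟨h1, h2⟩ := C.Su_Ss H hm hf hz e
  have h3 : C.Su f z e = C.Ss f z e := sub_eq_zero.1 he
  rw [h3] at h2
  have := H.a_pos
  exact norm_eq_zero.1 (pow_eq_zero_iff two_ne_zero |>.1 (le_antisymm (by nlinarith) (sq_nonneg _)))

lemma pd_ok : (C.pd f).Ok where
  isOpen := isOpen_ball
  ne := ⟨0, mem_ball_self (C.rr_pos H hm)⟩
  cont i := by
    have m1 : MapsTo (fun z : ZZ m => (f, z)) (C.pd f).W {k | C.Frm k.1 ∧ k.2 ∈ C.Dm k.1} :=
      fun z hz => ⟨hf, C.Dm_lt H hm hf (C.mem_pd.1 hz)⟩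
    cases i
    · exact (C.continuousOn_Ss H hm).comp (f := fun z : ZZ m => (f, z))
        (Continuous.prodMk_right f).continuousOn m1
    · exact (C.continuousOn_Su H hm).comp (f := fun z : ZZ m => (f, z))
        (Continuous.prodMk_right f).continuousOn m1
  symm i z hz x y := by
    have hG := C.ge_GG H hf (C.Dm_lt H hm hf (C.mem_pd.1 hz))
    cases i
    · exact C.HH_symm H (bas_ne0 hG.1) f _ x y
    · show ⟪-C.HH f _ _ x, y⟫ = ⟪x, -C.HH f _ _ y⟫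
      rw [inner_neg_left, inner_neg_right, C.HH_symm H (bas_ne0 hG.2.1)]
  unit z hz := C.pd_unit H hm hf (by linarith [C.mem_pd.1 hz, C.rr_pos H hm])
  leaf i z hz := C.pd_leaf H hm hf i (C.mem_pd.1 hz)
  mem z T fl h := by
    obtain ⟨g, -, h⟩ := (C.R_iff H hm hf).1 h
    exact ⟨C.mem_pd.2 h.self_of_nhds.1, C.mem_pd.2 h.self_of_nhds.2.1⟩
  smooth z T fl := C.R_smooth H hm hf
  ev z T fl h := by
    obtain ⟨g, hg, h⟩ := (C.R_iff H hm hf).1 h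
    exact h.eventually_nhds.mono fun y hy => (C.R_iff H hm hf).2 ⟨g, hg, hy⟩
  congr z T T' fl := fun ⟨g, hg, h1, h2⟩ e => ⟨g, hg, h1, e.trans h2⟩
  comp z T T' fl fl' := C.R_comp H hm hf
  inv z T fl := C.R_inv H hm hf
  sp z T fl := fun ⟨g, hg, h1, h2⟩ v w => by
    rw [C.fderiv_R H hm hf hg h1 h2, C.fderiv_R H hm hf hg h1 h2, om_flb,
      C.om_Tf H hm hf ((hf.fb C fl).fg C hg) h1]
  map z T fl i h v hv := C.R_map H hm hf i h hv
  per O := C.pd_per H hm hf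
  trans fl O O' := C.pd_trans H hm hf fl

end Cov

theorem dyS : DyS := fun _ _ _ _ _ _ C _ H hm hf => C.pd_ok H hm hf

end Crest.Agent.N221

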