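import Crest.Agent.N221.A1.Fin
import Crest.Agent.N221.G0.Main
import Crest.Agent.N221.G0.Ap4
import Crest.Agent.N221.G0.Fld
import Crest.Agent.N221.GI.Fin
import Crest.Agent.N221.Ni.Gl2
import Crest.Agent.N221.Ni.PB
import Crest.Agent.N221.All

/-! Row 221: the core from the last two open statements (helper90). -/

set_option autoImplicit false

namespace Crest.Agent.N221

theorem core_of_last (so : G0.SoX) (no : NB.NoS) : CoreS :=
  core_of2 (g0S_A (G0.g0a_of3 so G0.aprS G0.fldS)) (npS_of no polyB)

end Crest.Agent.N221
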