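import Crest.Agent.N221.A1.PDefs

/-! Row 221, step A1: derivatives of a polynomial are bounded by its sup norm (helper37). -/

set_option autoImplicit false

open Set Metric Finset
open scoped ContDiff Nat Topology

namespace Crest.Agent.N221.PS

namespace Ne

variable {E V : Type} [NormedAddCommGroup E] [NormedSpace ℝ E] [FiniteDimensional ℝ E]
  [NormedAddCommGroup V] [NormedSpace ℝ V]

/-- norm equivalence on a finite dimensional space of smooth functions -/
theorem abs (P : Submodule ℝ (E → V)) [FiniteDimensional ℝ P] {R : ℝ} (hR : 0 < R)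
    (hs : ∀ p ∈ P, ContDiff ℝ ∞ p) (hz : ∀ p ∈ P, (∀ x, ‖x‖ ≤ R → p x = 0) → p = 0) (k : ℕ) :
    ∃ C : ℝ, 0 < C ∧ ∀ p ∈ P, ∀ η : ℝ, (∀ x, ‖x‖ ≤ R → ‖p x‖ ≤ η) →
      ∀ i ≤ k, ∀ y : E, ‖y‖ ≤ R → ‖iteratedFDeriv ℝ i p y‖ ≤ C * η := by
  have : ProperSpace E := FiniteDimensional.proper_real E
  have : CompactSpace (closedBall (0 : E) R) := isCompact_iff_compactSpace.1 (isCompact_closedBall _ _)
  let b := Module.finBasis ℝ P
  let F : P →ₗ[ℝ] C(closedBall (0 : E) R, V) :=
    { toFun := fun p => ⟨fun x => p.1 x, (hs p.1 p.2).continuous.comp continuous_subtype_val⟩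
      map_add' := fun _ _ => rfl
      map_smul' := fun _ _ => rfl }
  have hF : Function.Injective F := (injective_iff_map_eq_zero F).2 fun p hp =>
    Subtype.ext (hz p.1 p.2 fun x hx => DFunLike.congr_fun hp ⟨x, mem_closedBall_zero_iff.2 hx⟩)
  obtain ⟨K, -, hK⟩ := (F ∘ₗ b.equivFun.symm.toLinearMap).exists_antilipschitzWith
    (LinearMap.ker_eq_bot.2 (hF.comp b.equivFun.symm.injective))
  have hm : ∀ j (i : ℕ), ∃ M, ∀ y ∈ closedBall (0 : E) R, ‖iteratedFDeriv ℝ i (b j).1 y‖ ≤ M :=
    fun j i => (isCompact_closedBall _ _).exists_bound_of_continuousOn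
      ((hs _ (b j).2).continuous_iteratedFDeriv (by exact_mod_cast le_top)).continuousOn
  choose M hM using hm
  refine ⟨K * (∑ j, ∑ i ∈ range (k + 1), |M j i|) + 1, by positivity,
    fun p hp η hη i hi y hy => ?_⟩
  have h0 : 0 ≤ η := (norm_nonneg _).trans (hη 0 (by simpa using hR.le))
  have h1 : ‖b.equivFun ⟨p, hp⟩‖ ≤ K * η := by
    refine (hK.le_mul_norm (map_zero _) _).trans (mul_le_mul_of_nonneg_left ?_ K.2)
    rw [LinearMap.comp_apply, LinearEquiv.coe_coe, LinearEquiv.symm_apply_apply]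
    exact (ContinuousMap.norm_le _ h0).2 fun x => hη x (mem_closedBall_zero_iff.1 x.2)
  have h2 : p = ∑ j, b.equivFun ⟨p, hp⟩ j • (b j).1 := by
    have := congrArg Subtype.val (b.sum_equivFun ⟨p, hp⟩)
    rw [Submodule.coe_sum] at this
    exact this.symm
  have h3 : ∀ j, ContDiffAt ℝ i (b j).1 y := fun j =>
    ((hs _ (b j).2).of_le (by exact_mod_cast le_top)).contDiffAt
  generalize b.equivFun ⟨p, hp⟩ = c at h1 h2
  rw [h2, iteratedFDeriv_sum_apply (f := fun j => c j • (b j).1) fun j _ => (h3 j).const_smul _,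
    add_mul, mul_right_comm, mul_sum]
  refine (norm_sum_le _ _).trans ((sum_le_sum fun j _ => ?_).trans (le_add_of_nonneg_right
    (by positivity)))
  rw [iteratedFDeriv_const_smul_apply (h3 j), norm_smul]
  exact mul_le_mul ((norm_le_pi_norm c j).trans h1)
    ((hM j i y (mem_closedBall_zero_iff.2 hy)).trans ((le_abs_self _).trans
      (single_le_sum (f := fun i => |M j i|) (fun _ _ => abs_nonneg _)
        (mem_range.2 (Nat.lt_succ_of_le hi))))) (norm_nonneg _) (by positivity)

/-- the polynomial of a tuple of multilinear maps -/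
noncomputable def L (E V : Type) [NormedAddCommGroup E] [NormedSpace ℝ E] [NormedAddCommGroup V]
    [NormedSpace ℝ V] (n : ℕ) : ((i : Fin (n + 1)) → E [×i]→L[ℝ] V) →ₗ[ℝ] (E → V) where
  toFun w x := ∑ i, w i fun _ => x
  map_add' _ _ := by funext x; simp [sum_add_distrib]
  map_smul' _ _ := by funext x; simp [smul_sum]

end Ne

theorem neS (h : RemS) : NeS := by
  intro E V _ _ _ _ _ _ n k R hR
  have : ∀ i : ℕ, FiniteDimensional ℝ (E [×i]→L[ℝ] V) := fun i =>
    Module.Finite.of_injective ContinuousMultilinearMap.toMultilinearMapLinear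
      ContinuousMultilinearMap.toMultilinearMap_injective
  refine (Ne.abs (LinearMap.range (Ne.L E V n)) hR ?_ ?_ k).imp fun C hC => ⟨hC.1, fun f =>
    hC.2 _ ⟨fun i => ((i : ℕ)! : ℝ)⁻¹ • iteratedFDeriv ℝ i f 0, funext fun x => ?_⟩⟩
  rotate_right
  · rw [tay, sum_range]
    rfl
  · rintro _ ⟨w, rfl⟩
    exact ContDiff.sum (s := univ) fun i _ => (w i).contDiff.comp (contDiff_pi.2 fun _ => contDiff_id)
  · rintro _ ⟨w, rfl⟩ hw
    funext x
    have e : ∀ t : ℝ, ∑ i ∈ range (n + 1), t ^ i •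
        (if hi : i < n + 1 then w ⟨i, hi⟩ fun _ => x else 0) = Ne.L E V n w (t • x) := fun t => by
      rw [sum_range]
      refine sum_congr rfl fun i _ => ?_
      rw [dif_pos i.2, (w i).map_smul_univ (fun _ => t) fun _ => x]
      simp
    have h0 := norm_nonneg x
    have := h V n _ (R / (‖x‖ + R)) 1 0 (by positivity) ((div_le_one (by positivity)).2 (by linarith))
      (fun t ht => by
        rw [e, hw, norm_zero]
        have := (le_div_iff₀ (by positivity)).1 ht.2
        rw [norm_smul, Real.norm_of_nonneg ht.1]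
        nlinarith [ht.1]) 1 ⟨zero_le_one, le_rfl⟩
    rw [e] at this
    simpa using this

end Crest.Agent.N221.PS
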