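import Crest.Agent.N221.A1.PDefs

/-!
Row 221, step A1 (helper67): the Remez inequality on an interval (`RemS`, Lagrange interpolation at
equidistant nodes) and its version for almost polynomial curves (`RmS`).
-/

set_option autoImplicit false

open Set Metric Finset
open scoped ContDiff Nat Topology

namespace Crest.Agent.N221.PS

/-- `∏_{j ≤ n, j ≠ k} |k - j| = k! (n - k)!` -/
lemma prod_abs_sub (k m : ℕ) :
    ∏ j ∈ (range (k + m + 1)).erase k, |(k : ℝ) - j| = (k ! : ℝ) * (m ! : ℝ) := by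
  induction m with
  | zero =>
    rw [add_zero, Finset.range_add_one, Finset.erase_insert Finset.notMem_range_self,
      ← Finset.prod_range_reflect, Nat.factorial_zero, Nat.cast_one, mul_one,
      ← Finset.prod_range_add_one_eq_factorial, Nat.cast_prod]
    refine Finset.prod_congr rfl fun j hj => ?_
    have hj' : j < k := Finset.mem_range.1 hj
    obtain ⟨r, rfl⟩ : ∃ r, k = j + 1 + r := ⟨k - (j + 1), by omega⟩
    rw [show j + 1 + r - 1 - j = r by omega]
    push_cast
    rw [abs_of_nonneg (by linarith [Nat.cast_nonneg (α := ℝ) j])]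
    ring
  | succ m ih =>
    rw [← add_assoc, Finset.range_add_one, Finset.erase_insert_of_ne (by omega),
      Finset.prod_insert (by simp), ih, Nat.factorial_succ]
    push_cast
    rw [abs_of_nonpos (by linarith [Nat.cast_nonneg (α := ℝ) m])]
    ring

/-- `∑_k n^n / (k! (n - k)!) ≤ 6^n` -/
lemma sum_inv_fact_le (n : ℕ) :
    ∑ k ∈ range (n + 1), (n : ℝ) ^ n / ((k ! : ℝ) * ((n - k)! : ℝ)) ≤ 6 ^ n := by
  have hn : (0 : ℝ) < (n ! : ℝ) := by exact_mod_cast Nat.factorial_pos n
  have h1 : ∀ k ∈ range (n + 1), (n : ℝ) ^ n / ((k ! : ℝ) * ((n - k)! : ℝ)) =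
      (n : ℝ) ^ n / (n ! : ℝ) * (n.choose k : ℝ) := by
    intro k hk
    have hk' : k ≤ n := Nat.lt_succ_iff.1 (Finset.mem_range.1 hk)
    have h2 : (n.choose k : ℝ) * (k ! : ℝ) * ((n - k)! : ℝ) = (n ! : ℝ) := by
      exact_mod_cast Nat.choose_mul_factorial_mul_factorial hk'
    have h3 : (0 : ℝ) < (k ! : ℝ) := by exact_mod_cast Nat.factorial_pos k
    have h4 : (0 : ℝ) < ((n - k)! : ℝ) := by exact_mod_cast Nat.factorial_pos (n - k)
    have h5 : (0 : ℝ) < (n.choose k : ℝ) := by exact_mod_cast Nat.choose_pos hk'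
    rw [← h2]
    field_simp
  rw [Finset.sum_congr rfl h1, ← Finset.mul_sum, ← Nat.cast_sum, Nat.sum_range_choose]
  have h6 : (n : ℝ) ^ n / (n ! : ℝ) ≤ 3 ^ n := by
    refine (Real.pow_div_factorial_le_exp _ (Nat.cast_nonneg n) n).trans ?_
    rw [← Real.exp_one_pow]
    exact pow_le_pow_left₀ (Real.exp_pos 1).le (by linarith [Real.exp_one_lt_d9]) n
  push_cast
  calc (n : ℝ) ^ n / (n ! : ℝ) * 2 ^ n ≤ 3 ^ n * 2 ^ n := by gcongr
    _ = 6 ^ n := by rw [← mul_pow]; norm_num

theorem remS : RemS := by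
  intro V _ _ n c l L η hl hL h t ht
  classical
  have hη : 0 ≤ η := (norm_nonneg _).trans (h 0 ⟨le_rfl, hl.le⟩)
  rcases Nat.eq_zero_or_pos n with rfl | hn
  · simpa using h 0 ⟨le_rfl, hl.le⟩
  have hn' : (0 : ℝ) < n := by exact_mod_cast hn
  set v : ℕ → ℝ := fun k => k * (l / n) with hv
  have hd : 0 < l / n := by positivity
  have hinj : Set.InjOn v (range (n + 1) : Finset ℕ) := fun i _ j _ e => by
    exact_mod_cast mul_right_cancel₀ hd.ne' e
  have hvm : ∀ k ∈ range (n + 1), v k ∈ Icc 0 l := by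
    intro k hk
    have hk' : (k : ℝ) ≤ n := by exact_mod_cast Nat.lt_succ_iff.1 (Finset.mem_range.1 hk)
    refine ⟨by positivity, ?_⟩
    calc (k : ℝ) * (l / n) ≤ n * (l / n) := by gcongr
      _ = l := by field_simp
  set b : ℕ → ℝ := fun k => (Lagrange.basis (range (n + 1)) v k).eval t with hb
  have hpow : ∀ i ∈ range (n + 1), t ^ i = ∑ k ∈ range (n + 1), b k * v k ^ i := by
    intro i hi
    have h1 := Lagrange.eq_interpolate (f := (Polynomial.X : Polynomial ℝ) ^ i) hinj (by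
      rw [Polynomial.degree_X_pow, Finset.card_range]
      exact_mod_cast Finset.mem_range.1 hi)
    have h2 := congrArg (Polynomial.eval t) h1
    rw [Lagrange.interpolate_apply, Polynomial.eval_finsetSum] at h2
    simp only [Polynomial.eval_pow, Polynomial.eval_X, Polynomial.eval_mul,
      Polynomial.eval_C] at h2
    rw [h2]
    exact Finset.sum_congr rfl fun k _ => mul_comm _ _
  have hsum : ∑ i ∈ range (n + 1), t ^ i • c i =
      ∑ k ∈ range (n + 1), b k • ∑ i ∈ range (n + 1), v k ^ i • c i := by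
    simp only [Finset.smul_sum, smul_smul]
    rw [Finset.sum_comm]
    exact Finset.sum_congr rfl fun i hi => by rw [hpow i hi, Finset.sum_smul]
  have hbk : ∀ k ∈ range (n + 1),
      |b k| ≤ (L / l) ^ n * ((n : ℝ) ^ n / ((k ! : ℝ) * ((n - k)! : ℝ))) := by
    intro k hk
    have hk' : k ≤ n := Nat.lt_succ_iff.1 (Finset.mem_range.1 hk)
    have hcard : ((range (n + 1)).erase k).card = n := by
      rw [Finset.card_erase_of_mem hk, Finset.card_range, Nat.add_sub_cancel]
    have hp := prod_abs_sub k (n - k)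
    rw [Nat.add_sub_cancel' hk'] at hp
    have h1 : |b k| = ∏ j ∈ (range (n + 1)).erase k, |(v k - v j)⁻¹ * (t - v j)| := by
      simp only [hb, Lagrange.basis, Lagrange.basisDivisor, Polynomial.eval_prod,
        Polynomial.eval_mul, Polynomial.eval_C, Polynomial.eval_sub, Polynomial.eval_X,
        Finset.abs_prod]
    have h2 : ∀ j ∈ (range (n + 1)).erase k,
        |(v k - v j)⁻¹ * (t - v j)| ≤ L / l * n * |(k : ℝ) - j|⁻¹ := by
      intro j hj
      have hj' := hvm j (Finset.mem_of_mem_erase hj)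
      have h3 : |t - v j| ≤ L := abs_le.2 ⟨by linarith [ht.1, hj'.2], by linarith [ht.2, hj'.1]⟩
      have h4 : |(v k - v j)⁻¹| = n / l * |(k : ℝ) - j|⁻¹ := by
        rw [hv]
        simp only
        rw [← sub_mul, abs_inv, abs_mul, abs_of_pos hd, mul_inv, inv_div, mul_comm]
      rw [abs_mul, h4]
      calc n / l * |(k : ℝ) - j|⁻¹ * |t - v j| ≤ n / l * |(k : ℝ) - j|⁻¹ * L := by gcongr
        _ = L / l * n * |(k : ℝ) - j|⁻¹ := by ring
    rw [h1]
    refine (Finset.prod_le_prod (fun _ _ => abs_nonneg _) h2).trans (le_of_eq ?_)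
    rw [Finset.prod_mul_distrib, Finset.prod_const, hcard, Finset.prod_inv_distrib, hp, mul_pow]
    ring
  have hL0 : 0 ≤ L / l := div_nonneg (hl.le.trans hL) hl.le
  rw [hsum]
  calc ‖∑ k ∈ range (n + 1), b k • ∑ i ∈ range (n + 1), v k ^ i • c i‖
      ≤ ∑ k ∈ range (n + 1), (L / l) ^ n * ((n : ℝ) ^ n / ((k ! : ℝ) * ((n - k)! : ℝ))) * η := by
        refine (norm_sum_le _ _).trans (Finset.sum_le_sum fun k hk => ?_)
        rw [norm_smul, Real.norm_eq_abs]
        exact mul_le_mul (hbk k hk) (h _ (hvm k hk)) (norm_nonneg _) (by positivity)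
    _ ≤ (L / l) ^ n * 6 ^ n * η := by
        rw [← Finset.sum_mul, ← Finset.mul_sum]
        gcongr
        exact sum_inv_fact_le n
    _ = (6 * L / l) ^ n * η := by rw [← mul_pow, mul_comm (L / l), mul_div_assoc]

theorem rmS : RmS := by
  intro V _ _ _ n f l η ε hl hl1 hf hη hε t ht
  have hε0 : 0 ≤ ε := (norm_nonneg _).trans (hε 0 ⟨le_rfl, zero_le_one⟩)
  have hat : ∀ s ∈ Icc (0 : ℝ) 1, ContDiffAt ℝ (n + 1 : ℕ) f s := fun s hs =>
    (hf s hs).of_le (by exact_mod_cast le_top)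
  have hon : ContDiffOn ℝ (n + 1) f (Icc 0 1) := fun s hs => by
    exact_mod_cast (hat s hs).contDiffWithinAt
  have hbd : ∀ s ∈ Icc (0 : ℝ) 1, ‖iteratedDerivWithin (n + 1) f (Icc 0 1) s‖ ≤ ε := by
    intro s hs
    rw [iteratedDerivWithin_eq_iteratedDeriv (uniqueDiffOn_Icc zero_lt_one) (hat s hs) hs]
    exact hε s hs
  set c : ℕ → V := fun k => (k ! : ℝ)⁻¹ • iteratedDerivWithin k f (Icc 0 1) 0 with hc
  have hrem : ∀ s ∈ Icc (0 : ℝ) 1, ‖f s - ∑ i ∈ range (n + 1), s ^ i • c i‖ ≤ ε := by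
    intro s hs
    have h1 := taylor_mean_remainder_bound zero_le_one hon hs hbd
    have h2 : taylorWithinEval f n (Icc 0 1) 0 s = ∑ i ∈ range (n + 1), s ^ i • c i := by
      rw [taylor_within_apply]
      exact Finset.sum_congr rfl fun i _ => by rw [hc, smul_smul, sub_zero, mul_comm]
    rw [h2, sub_zero] at h1
    refine h1.trans ?_
    have h3 : (1 : ℝ) ≤ (n ! : ℝ) := by exact_mod_cast Nat.factorial_pos n
    refine (div_le_self (mul_nonneg hε0 (pow_nonneg hs.1 _)) h3).trans ?_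
    exact mul_le_of_le_one_right hε0 (pow_le_one₀ hs.1 hs.2)
  have h4 := remS V n c l 1 (η + ε) hl hl1 (fun s hs => by
    have h5 := norm_sub_norm_le (∑ i ∈ range (n + 1), s ^ i • c i) (f s)
    rw [norm_sub_rev] at h5
    linarith [hrem s ⟨hs.1, hs.2.trans hl1⟩, hη s hs]) t ht
  rw [mul_one] at h4
  have h6 := norm_sub_norm_le (f t) (∑ i ∈ range (n + 1), t ^ i • c i)
  linarith [hrem t ht]

end Crest.Agent.N221.PS
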