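import Crest.Agent.N221.A1.PDefs

/-! Row 221, step A1: Taylor polynomials (`TayS`). -/

set_option autoImplicit false

open Set Metric Finset Filter
open scoped ContDiff Nat Topology

namespace Crest.Agent.N221.PS

namespace Tay

variable {E V : Type} [NormedAddCommGroup E] [NormedSpace ℝ E] [NormedAddCommGroup V]
  [NormedSpace ℝ V] {n : ℕ}

lemma inv_fact_le (i : ℕ) : ‖(i ! : ℝ)⁻¹‖ ≤ 1 := by
  rw [Real.norm_of_nonneg (by positivity)]
  exact inv_le_one_of_one_le₀ (by exact_mod_cast i.factorial_pos)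

lemma norm_diag_le {i : ℕ} (M : E [×i]→L[ℝ] V) (x : E) : ‖M fun _ => x‖ ≤ ‖M‖ * ‖x‖ ^ i := by
  simpa using M.le_opNorm fun _ => x

lemma tay_smul (f : E → V) (t : ℝ) (x : E) : tay n f (t • x) =
    ∑ i ∈ range (n + 1), t ^ i • ((i ! : ℝ)⁻¹ • iteratedFDeriv ℝ i f 0 fun _ => x) := by
  refine sum_congr rfl fun i _ => ?_
  rw [smul_comm, (iteratedFDeriv ℝ i f 0).map_smul_univ (fun _ => t) fun _ => x]
  simp

lemma rem [CompleteSpace V] {f : E → V} {R D : ℝ} (hf : ContDiffOn ℝ ∞ f (ball 0 R))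
    (hD : ∀ x ∈ ball (0 : E) R, ‖iteratedFDeriv ℝ (n + 1) f x‖ ≤ D) {x : E} (hx : x ∈ ball (0 : E) R) :
    ‖f x - tay n f x‖ ≤ D * ‖x‖ ^ (n + 1) := by
  have hm : ∀ t ∈ Icc (0 : ℝ) 1, 0 + t • x ∈ ball (0 : E) R := fun t ht => by
    rw [mem_ball_zero_iff] at hx ⊢
    rw [zero_add, norm_smul, Real.norm_of_nonneg ht.1]
    exact (mul_le_of_le_one_left (norm_nonneg x) ht.2).trans_lt hx
  have h := map_add_eq_sum_add_integral_iteratedFDeriv (n := n) (f := f) (x := 0) (y := x)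
    fun t ht => (hf.contDiffAt (isOpen_ball.mem_nhds (hm t ht))).of_le (by exact_mod_cast le_top)
  rw [zero_add] at h
  rw [h, tay, add_sub_cancel_left, norm_smul]
  refine (mul_le_of_le_one_left (norm_nonneg _) (inv_fact_le n)).trans
    ((intervalIntegral.norm_integral_le_of_norm_le_const fun t ht => ?_).trans_eq (by simp; rfl))
  rw [uIoc_of_le zero_le_one] at ht
  rw [norm_smul, norm_pow, Real.norm_of_nonneg (sub_nonneg.2 ht.2)]
  refine (mul_le_of_le_one_left (norm_nonneg _)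
    (pow_le_one₀ (sub_nonneg.2 ht.2) (by linarith [ht.1]))).trans ((norm_diag_le _ x).trans ?_)
  gcongr
  exact hD _ (hm t ⟨ht.1.le, ht.2⟩)

lemma remez (h : RemS) (f : E → V) {r L η : ℝ} (hr : 0 < r) (hL : r ≤ L)
    (hη : ∀ x : E, ‖x‖ ≤ r → ‖tay n f x‖ ≤ η) {x : E} (hx : ‖x‖ ≤ L) :
    ‖tay n f x‖ ≤ (6 * L / r) ^ n * η := by
  have h0 : 0 < L := hr.trans_le hL
  have := h V n _ r L η hr hL (fun t ht => by
    rw [← tay_smul f t (L⁻¹ • x)]
    refine hη _ ?_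
    rw [norm_smul, norm_smul, Real.norm_of_nonneg ht.1, Real.norm_of_nonneg (inv_pos.2 h0).le]
    exact (mul_le_of_le_one_right ht.1 (by rwa [inv_mul_le_iff₀ h0, mul_one])).trans ht.2)
    L ⟨h0.le, le_rfl⟩
  rwa [← tay_smul, smul_inv_smul₀ h0.ne'] at this

lemma eq_zero [CompleteSpace V] (h : RemS) {f : E → V} {r K : ℝ} (hr : 0 < r)
    (hf : ContDiffOn ℝ ∞ f (ball 0 r)) (hK : ∀ x ∈ ball (0 : E) r, ‖f x‖ ≤ K * ‖x‖ ^ (n + 1)) (x : E) :
    tay n f x = 0 := by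
  have h1 : ContinuousAt (iteratedFDeriv ℝ (n + 1) f) 0 :=
    ((hf.contDiffAt (ball_mem_nhds 0 hr)).iteratedFDeriv_right (m := 0)
      (by exact_mod_cast le_top)).continuousAt
  obtain ⟨ε, hε, h2⟩ := Metric.mem_nhds_iff.1 ((h1.norm.eventually_lt_const
    (lt_add_one _)).and (ball_mem_nhds 0 hr))
  set D := ‖iteratedFDeriv ℝ (n + 1) f 0‖ + 1
  have h3 : ∀ᶠ l in 𝓝[>] (0 : ℝ), ‖tay n f x‖ ≤ (6 * (‖x‖ + 1)) ^ n * (|K| + D) * l := by
    filter_upwards [Ioo_mem_nhdsGT (lt_min hε one_pos)] with l hl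
    have a1 := lt_min_iff.1 hl.2
    refine (remez h f (η := (|K| + D) * l ^ (n + 1)) hl.1 (by linarith [norm_nonneg x]) (fun y hy => ?_)
      (lt_add_one _).le).trans_eq (by rw [div_pow]; field_simp [hl.1.ne']; ring)
    have a2 : y ∈ ball (0 : E) ε := mem_ball_zero_iff.2 (hy.trans_lt a1.1)
    have a3 := rem (hf.mono fun z hz => (h2 hz).2) (fun z hz => (h2 hz).1.le) a2
    have a4 := (hK y (h2 a2).2).trans (mul_le_mul_of_nonneg_right (le_abs_self K) (by positivity))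
    calc _ ≤ ‖f y‖ + ‖f y - tay n f y‖ := norm_le_norm_add_norm_sub _ _
      _ ≤ (|K| + D) * ‖y‖ ^ (n + 1) := by linarith
      _ ≤ _ := by gcongr
  have h4 : Tendsto (fun l : ℝ => (6 * (‖x‖ + 1)) ^ n * (|K| + D) * l) (𝓝[>] 0) (𝓝 _) :=
    (tendsto_id.const_mul _).mono_left nhdsWithin_le_nhds
  simpa using ge_of_tendsto h4 h3

lemma tay_sub {f g : E → V} (hf : ContDiffAt ℝ ∞ f 0) (hg : ContDiffAt ℝ ∞ g 0) (x : E) :
    tay n (f - g) x = tay n f x - tay n g x := by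
  rw [tay, tay, tay, ← sum_sub_distrib]
  refine sum_congr rfl fun i _ => ?_
  rw [iteratedFDeriv_sub_apply (hf.of_le (by exact_mod_cast le_top))
    (hg.of_le (by exact_mod_cast le_top)), ← smul_sub]
  rfl

lemma size (f : E → V) {L η : ℝ} (hL : 1 ≤ L) (hη : ∀ i ≤ n, ‖iteratedFDeriv ℝ i f 0‖ ≤ η) {x : E}
    (hx : ‖x‖ ≤ L) : ‖tay n f x‖ ≤ (n + 1) * L ^ n * η := by
  have h0 : 0 ≤ η := (norm_nonneg _).trans (hη 0 n.zero_le)
  refine (norm_sum_le _ _).trans ((sum_le_card_nsmul _ _ (η * L ^ n) fun i hi => ?_).trans_eq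
    (by simp; ring))
  have hi' := Nat.lt_succ_iff.1 (mem_range.1 hi)
  rw [norm_smul]
  refine (mul_le_of_le_one_left (norm_nonneg _) (inv_fact_le i)).trans ((norm_diag_le _ x).trans ?_)
  exact mul_le_mul (hη i hi') ((pow_le_pow_left₀ (norm_nonneg x) hx i).trans
    (pow_le_pow_right₀ hL hi')) (by positivity) h0

end Tay

open Tay in
theorem tayS (h : RemS) : TayS := fun _ _ _ _ _ _ _ _ =>
  ⟨fun _ _ _ hf hD _ hx => rem hf hD hx, fun f _ _ _ hr hL hη _ hx => remez h f hr hL hη hx,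
    fun _ _ _ _ hr hf hg hK => funext fun x => sub_eq_zero.1 ((tay_sub
      (hf.contDiffAt (ball_mem_nhds 0 hr)) (hg.contDiffAt (ball_mem_nhds 0 hr)) x).symm.trans
        (eq_zero h hr (hf.sub hg) hK x)),
    fun f _ _ hL hη _ hx => size f hL hη hx,
    fun f => ContDiff.sum fun i _ => ((iteratedFDeriv ℝ i f 0).contDiff.comp
      (contDiff_pi.2 fun _ => contDiff_id)).const_smul _⟩

end Crest.Agent.N221.PS
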