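import Crest.Agent.N221.A1.Hu
import Crest.Agent.N221.A1.Dy
import Crest.Agent.N221.Hm.Fin
import Crest.Agent.N221.Br.Main
import Crest.Agent.N221.Ex.Ux
import Crest.Agent.N221.K.All

/-! Row 221, step A1: what is left (helper90). -/

set_option autoImplicit false

namespace Crest.Agent.N221

theorem huS : HuS := huS_of Hm.hmS Br.brS

theorem core_of3 (dy : DyS) (g0 : G0S) (np : NpS) : CoreS :=
  core_of_A1 (a1_of covS dy g0 huS np uxS)

theorem core_of2 (g0 : G0S) (np : NpS) : CoreS := core_of3 dyS g0 np

end Crest.Agent.N221
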