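import Crest.Agent.N221.A1.Bas
import Crest.Agent.N221.Hu.Log

/-! Row 221, step A1: the adapter `PD → Hm.PG`, closure under the flip, `huS_of` (helper90). -/

set_option autoImplicit false

open Set Filter Topology Metric
open scoped ContDiff RealInnerProductSpace
open Crest.GeometryTopology.Submanifold

noncomputable section

namespace Crest.Agent.N221

namespace PD

variable {m : ℕ} {P : PD m} {z z' z'' : ZZ m} {fl fl' : Bool} {T : ZZ m → ZZ m}
  {L L' : ZZ m ≃L[ℝ] ZZ m} {O : Set (ZZ m)}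

/-- the linear groupoid of the differentials -/
def Rl (P : PD m) (z : ZZ m) (L : ZZ m ≃L[ℝ] ZZ m) (fl : Bool) (z' : ZZ m) : Prop :=
  ∃ T, P.R z T fl ∧ T z = z' ∧ HasFDerivAt T (L : ZZ m →L[ℝ] ZZ m) z

lemma Rl.of_mv {g : Hm.Mv (ZZ m)} (hg : g ∈ P.mv) (hz : z ∈ g.U) : P.Rl z (g.L z) g.s (g.f z) :=
  ⟨g.f, (hg.2 z hz).1, rfl, (hg.2 z hz).2⟩

lemma Rl.comp (h : P.Ok) (h1 : P.Rl z L fl z') (h2 : P.Rl z' L' fl' z'') :
    P.Rl z (L.trans L') (xor fl fl') z'' := by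
  obtain ⟨T, a, rfl, b⟩ := h1
  obtain ⟨T', a', rfl, b'⟩ := h2
  exact ⟨T' ∘ T, h.comp _ _ _ _ _ a a', rfl, b'.comp z b⟩

lemma Rl.symm (h : P.Ok) (h1 : P.Rl z L fl z') : P.Rl z' L.symm fl z := by
  obtain ⟨T, a, rfl, b⟩ := h1
  obtain ⟨T', a', e, -⟩ := h.inv _ _ _ a
  refine ⟨T', a', e.eq_of_nhds, ?_⟩
  have h2 := ((h.hasFDerivAt a').comp z b).unique ((hasFDerivAt_id z).congr_of_eventuallyEq e)
  convert h.hasFDerivAt a' using 1
  refine ContinuousLinearMap.ext fun v => ?_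
  simpa using (congrArg (fun A : ZZ m →L[ℝ] ZZ m => A (L.symm v)) h2).symm

lemma Rl.map (h : P.Ok) (h1 : P.Rl z L fl z') (i : Bool) {v : ZZ m} (hv : v ∈ P.E i z) :
    L v ∈ P.E (xor i fl) z' := by
  obtain ⟨T, a, rfl, b⟩ := h1
  have := h.map _ _ _ i a v hv
  rwa [b.fderiv] at this

lemma iter_le {i : Bool} (hL : ∀ v ∈ P.E i z, L v ∈ P.E i z)
    (h2 : ∀ v ∈ P.E i z, 2 * ‖(L v).1‖ ≤ ‖v.1‖) (j : ℕ) {v : ZZ m} (hv : v ∈ P.E i z) :
    ‖(⇑L)^[j] v‖ ≤ (1 + ‖P.S i z‖) * (1 / 2) ^ j * ‖v‖ := by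
  have : (⇑L)^[j] v ∈ P.E i z ∧ ‖((⇑L)^[j] v).1‖ ≤ (1 / 2) ^ j * ‖v‖ := by
    induction j with
    | zero => exact ⟨hv, by simpa using norm_fst_le v⟩
    | succ j ih =>
      rw [Function.iterate_succ_apply']
      have := h2 _ ih.1
      exact ⟨hL _ ih.1, by rw [pow_succ]; linarith [ih.2]⟩
  rw [mul_assoc]
  exact (E_bound this.1).trans (by gcongr; exact this.2)

/-- the model of `Hm` -/
theorem Ok.pg (h : P.Ok) : Hm.PG (omL m) P.W P.pi P.mv where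
  skew v w := by simpa using om_antisymm v w
  nd v hv := om_nd (by simpa using hv)
  cont := h.cont_pi
  idem z hz := ContinuousLinearMap.ext fun v => h.pi_pi hz v
  lag z hz v w := by simpa only [omL_apply] using h.om_pi hz v w
  opn g hg := hg.1
  sm g hg := h.contDiffOn fun y hy => (hg.2 y hy).1
  der g hg z hz := (hg.2 z hz).2
  sym g hg z hz v w := by
    have := h.sp _ _ _ (hg.2 z hz).1 v w
    rw [(hg.2 z hz).2.fderiv] at this
    rw [omL_apply, omL_apply]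
    exact this
  eqv g hg z hz _ _ v := by
    have := h.pr_map (hg.2 z hz).1 v
    rwa [(hg.2 z hz).2.fderiv] at this
  flip O hO := by
    obtain ⟨z, hz, T, hR, hT⟩ := h.trans true O O hO.opn hO.ne hO.sub hO.opn hO.ne hO.sub
    obtain ⟨g, hg, h1, rfl, h2⟩ := h.exists_mv hR
    exact ⟨g, hg, h2, z, h1, hz, hT⟩
  per O hO := by
    obtain ⟨z, hz, T, hR, hT, hs, hu⟩ := h.per O hO.opn hO.ne hO.sub
    obtain ⟨g, hg, h1, rfl, h2⟩ := h.exists_mv hR
    have hl := Rl.of_mv hg h1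
    rw [h2, hT] at hl
    rw [(hg.2 z h1).2.fderiv] at hs hu
    have hW := hO.sub hz
    refine ⟨g, hg, z, hz, h2, h1, hT, 1 + ‖P.S false z‖ + ‖P.S true z‖, 1 / 2, by norm_num,
      by norm_num, fun j v => ⟨fun hv => ?_, fun hv => ?_⟩⟩
    · refine (iter_le (i := false) (fun v hv => hl.map h false hv) hs j
        ((h.pi_eq_zero hW).1 hv)).trans ?_
      gcongr ?_ * _ * _; simp
    · refine (iter_le (i := true) (fun v hv => (hl.symm h).map h true hv) (fun v hv => ?_) j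
        ((h.pi_eq_self hW).1 hv)).trans ?_
      · simpa using hu _ ((hl.symm h).map h true hv)
      · gcongr; simp

/-- the output of `Hm` -/
theorem Ok.isPair (h : P.Ok) {Y : Bool → ZZ m → Submodule ℝ (ZZ m)}
    (hY : Hm.Out (omL m) P.W P.pi P.mv O Y) : P.IsPair O fun i => Y (!i) where
  isOpen := hY.sub.opn
  ne := hY.sub.ne
  sub := hY.sub.sub
  smooth i := hY.sm (!i)
  ne_bot i := hY.nz (!i)
  le i z hz v hv := by
    have := (h.pr_eq_self (hY.sub.sub hz) (!i)).1 (hY.le _ z hz v hv)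
    rwa [Bool.not_not] at this
  orth z hz u hu v hv := by simpa using hY.iso false z hz u hu v hv
  map i z hz T fl hR hT v hv := by
    obtain ⟨g, hg, h1, rfl, rfl⟩ := h.exists_mv hR
    have := (hY.eqv g hg z h1 hz hT (!i) v).1 hv
    rw [(hg.2 z h1).2.fderiv]
    rwa [Bool.not_xor] at this
  ch i z hz ζ h1 h2 u hu v hv := by
    have := hY.ch i z hz ζ h1 h2 u (by simpa using hu) v (by simpa using hv)
    simpa using this

/-- and back -/
theorem IsPair.out (h : P.Ok) {Y : Bool → ZZ m → Submodule ℝ (ZZ m)} (hY : P.IsPair O Y) :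
    Hm.Out (omL m) P.W P.pi P.mv O fun i => Y (!i) where
  sub := ⟨hY.isOpen, hY.ne, hY.sub⟩
  sm i := hY.smooth (!i)
  nz i := hY.ne_bot (!i)
  le i z hz v hv := (h.pr_eq_self (hY.sub hz) i).2 (hY.le _ z hz hv)
  iso i z hz u hu v hv := by
    cases i
    · simpa using hY.orth z hz u hu v hv
    · rw [omL_apply, om_antisymm, hY.orth z hz v hv u hu, neg_zero]
  eqv g hg z h1 hz hT i v := by
    have key : ∀ {z z' L fl}, P.Rl z L fl z' → z ∈ O → z' ∈ O → ∀ i, ∀ v ∈ Y i z,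
        L v ∈ Y (xor i fl) z' := by
      rintro z z' L fl ⟨T, a, rfl, b⟩ hz hz' i v hv
      have := hY.map i z hz T fl a hz' v hv
      rwa [b.fderiv] at this
    have hl := Rl.of_mv hg h1
    refine ⟨fun hv => ?_, fun hv => ?_⟩
    · simpa using key hl hz hT _ v hv
    · simpa using key (hl.symm h) hT hz _ _ hv
  ch i z hz ζ h1 h2 u hu v hv := by
    have := hY.ch (!!i) z hz ζ h1 h2 u (by simpa using hu) v (by simpa using hv)
    simpa using this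

variable {k : ZZ m → Submodule ℝ (ZZ m →L[ℝ] ZZ m)}

lemma Cl0.rl (hk : P.Cl0 O k) (h1 : P.Rl z L false z') (hz : z ∈ O) (hz' : z' ∈ O)
    (X : ZZ m →L[ℝ] ZZ m) : X ∈ k z ↔ L.conjContinuousAlgEquiv X ∈ k z' := by
  obtain ⟨T, a, rfl, b⟩ := h1
  exact hk.eqv z hz T a hz' L b X

lemma cdo_prod {D X Y Z : Type} [NormedAddCommGroup D] [NormedSpace ℝ D] [NormedAddCommGroup X]
    [NormedSpace ℝ X] [NormedAddCommGroup Y] [NormedSpace ℝ Y] [NormedAddCommGroup Z]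
    [NormedSpace ℝ Z] {A : D → X →L[ℝ] Y} {B : D → X →L[ℝ] Z} {U : Set D}
    (hA : ContDiffOn ℝ ∞ A U) (hB : ContDiffOn ℝ ∞ B U) :
    ContDiffOn ℝ ∞ (fun y => (A y).prod (B y)) U :=
  (ContinuousLinearMap.prodₗᵢ ℝ (E := X) (F := Y) (G := Z) (𝕜 := ℝ)).contDiff.comp_contDiffOn
    (hA.prodMk hB)

/-- closure under the flip -/
theorem Cl0.cls (h : P.Ok) (hk : P.Cl0 O k) :
    ∃ O' k', Hm.Cls (omL m) P.W P.pi P.mv O' k' := by
  have hO := hk.sub
  obtain ⟨z₁, hz₁, T, hR, hT⟩ := h.trans true O O hO.opn hO.ne hO.sub hO.opn hO.ne hO.sub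
  obtain ⟨g, hg, h1, rfl, h2⟩ := h.exists_mv hR
  have hs := h.pg.sm g hg
  set U := g.U ∩ g.f ⁻¹' O ∩ O with hU
  have hUo : IsOpen U := (hs.continuousOn.isOpen_inter_preimage hg.1 hO.opn).inter hO.opn
  have hl : ∀ y ∈ U, P.Rl y (g.L y) true (g.f y) := fun y hy => h2 ▸ Rl.of_mv hg hy.1.1
  obtain ⟨p, hp, hp'⟩ := hk.sm
  let k' : ZZ m → Submodule ℝ (ZZ m →L[ℝ] ZZ m) := fun y =>
    k y ⊓ (k (g.f y)).comap (g.L y).conjContinuousAlgEquiv.toAlgEquiv.toLinearMap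
  have hk' : ∀ y X, X ∈ k' y ↔ X ∈ k y ∧ (g.L y).conjContinuousAlgEquiv X ∈ k (g.f y) :=
    fun _ _ => Iff.rfl
  have hL : ContDiffOn ℝ ∞ (fun y => (g.L y : ZZ m →L[ℝ] ZZ m)) U :=
    ((hs.fderiv_of_isOpen hg.1 (m := ∞) (by simp)).mono fun y hy => hy.1.1).congr
      fun y hy => (hg.2 y hy.1.1).2.fderiv.symm
  have hLi : ContDiffOn ℝ ∞ (fun y => ((g.L y).symm : ZZ m →L[ℝ] ZZ m)) U := fun y hy => by
    have := (contDiffAt_map_inverse (n := ∞) (g.L y)).comp_contDiffWithinAt y (hL y hy)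
    simpa [Function.comp_def] using this
  obtain ⟨O', hO', hsm⟩ := Hm.kerS (ZZ m) (ZZ m →L[ℝ] ZZ m) _ (fun y => (1 - p y).prod
    ((1 - p (g.f y)) ∘L ContinuousLinearMap.mulLeftRight ℝ _ (g.L y : ZZ m →L[ℝ] ZZ m)
      ((g.L y).symm : ZZ m →L[ℝ] ZZ m))) k' U hUo ⟨z₁, ⟨h1, hT⟩, hz₁⟩
    (cdo_prod (contDiffOn_const.sub (hp.mono fun y hy => hy.2))
      ((contDiffOn_const.sub (hp.comp (hs.mono fun y hy => hy.1.1) fun y hy => hy.1.2)).clm_comp
        ((contDiffOn_const.clm_apply hL).clm_apply hLi)))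
    (fun y hy X => by
      have e : ∀ y ∈ O, ∀ X, X ∈ k y ↔ X - p y X = 0 := fun y hy X =>
        ⟨fun a => by rw [(hp' y hy).2 X a, sub_self], fun a => by
          rw [sub_eq_zero.1 a]; exact (hp' y hy).1 X⟩
      rw [hk', e y hy.2, e _ hy.1.2, ContinuousLinearMap.prod_apply, Prod.mk_eq_zero]
      rfl)
  have hO1 : ∀ y ∈ O', y ∈ O := fun y hy => (hO'.sub hy).2
  have hO2 : ∀ y ∈ O', g.f y ∈ O := fun y hy => (hO'.sub hy).1.2
  refine ⟨O', k', ⟨hO'.opn, hO'.ne, fun y hy => hO.sub (hO1 y hy)⟩, hsm,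
    fun z hz X hX Y hY => ⟨hk.lie z (hO1 z hz) X hX.1 Y hY.1, ?_⟩,
    fun z hz X hX v w => by simpa using hk.sp z (hO1 z hz) X hX.1 v w,
    fun z hz X hX Y hY => hk.tr0 z (hO1 z hz) X hX.1 Y hY.1, fun g' hg' z hz a b X => ?_,
    fun g' hg' z hz hP D hD => ?_⟩
  · have := hk.lie _ (hO2 z hz) _ ((hk' z X).1 hX).2 _ ((hk' z Y).1 hY).2
    rwa [← map_mul, ← map_mul, ← map_sub] at this
  · have l0 := Rl.of_mv hg' hz
    have l1 := hl z (hO'.sub a)
    have l2 := hl _ (hO'.sub b)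
    rw [hk', hk']
    cases hs' : g'.s <;> rw [hs'] at l0
    · refine and_congr (hk.rl l0 (hO1 z a) (hO1 _ b) X) ?_
      rw [hk.rl (((l1.symm h).comp h l0).comp h l2) (hO2 z a) (hO2 _ b)]
      exact iff_of_eq (congrArg _ (ContinuousLinearMap.ext fun v => by simp))
    · rw [and_comm]
      refine and_congr ?_ (hk.rl (l0.comp h l2) (hO1 z a) (hO2 _ b) X)
      rw [hk.rl ((l1.symm h).comp h l0) (hO2 z a) (hO1 _ b)]
      exact iff_of_eq (congrArg _ (ContinuousLinearMap.ext fun v => by simp))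
  · have l0 := Rl.of_mv hg' hP.mem
    rw [hP.s, hP.fix] at l0
    have l1 := hl z (hO'.sub hz)
    obtain ⟨T, a, b, c⟩ := ((l1.symm h).comp h l0).comp h l1
    obtain ⟨T', a', b', c'⟩ := l0
    refine ⟨hk.log z (hO1 z hz) T' a' b' _ c' D hD, hk.log _ (hO2 z hz) T a b _ c _ fun r v hv => ?_⟩
    have := hD r _ (K.LA.Gr.map (L' := g'.L z) hv ((g.L z).symm : ZZ m →L[ℝ] ZZ m) fun x => by simp)
    simp only [ContinuousLinearEquiv.coe_coe] at this
    simp [this]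

end PD

/-- the hull dichotomy from its two halves -/
theorem huS_of (hm : Hm.HmS) (br : BrS) : HuS := fun m P h hF => by
  obtain ⟨O, k, hk⟩ := br m P h hF
  rcases hm _ _ _ _ _ h.pg (hk.cls h) with ⟨O, hO, hs⟩ | ⟨O, Y, hY⟩
  · exact Or.inl ⟨O, hO.opn, hO.ne, hO.sub, hs⟩
  · exact Or.inr ⟨O, _, h.isPair hY⟩

end Crest.Agent.N221
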