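import Crest.Agent.N221.A1.PDefs

/-! Row 221, step A1: interpolation of derivatives (`IntS`), no devil staircase (`StairS`). -/

set_option autoImplicit false

open Set Metric
open scoped ContDiff Topology

namespace Crest.Agent.N221.PS

namespace Int

variable {V : Type} [NormedAddCommGroup V] [NormedSpace ℝ V]

lemma sm {f : ℝ → V} {t : ℝ} (h : ContDiffAt ℝ ∞ f t) : ∀ k, ContDiffAt ℝ ∞ (iteratedDeriv k f) t
  | 0 => by simpa using h
  | k + 1 => by rw [iteratedDeriv_succ]; exact (sm h k).derivWithin (by simp)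

lemma der {f : ℝ → V} {t : ℝ} (h : ContDiffAt ℝ ∞ f t) (k : ℕ) :
    HasDerivAt (iteratedDeriv k f) (iteratedDeriv (k + 1) f t) t := by
  rw [iteratedDeriv_succ]
  exact ((sm h k).differentiableAt (by simp)).hasDerivAt

/-- Landau's inequality on `[0, 1]` -/
lemma landau {g g' g'' : ℝ → V} {A B h t : ℝ} (h1 : ∀ u ∈ Icc (0 : ℝ) 1, HasDerivAt g (g' u) u)
    (h2 : ∀ u ∈ Icc (0 : ℝ) 1, HasDerivAt g' (g'' u) u) (hA : ∀ u ∈ Icc (0 : ℝ) 1, ‖g u‖ ≤ A)
    (hB : ∀ u ∈ Icc (0 : ℝ) 1, ‖g'' u‖ ≤ B) (h0 : 0 < h) (hh : h ≤ 1 / 2) (ht : t ∈ Icc (0 : ℝ) 1) :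
    ‖g' t‖ ≤ 2 * A / h + h * B := by
  obtain ⟨s, hs, e⟩ : ∃ s ∈ Icc (0 : ℝ) 1, ‖s - t‖ = h := by
    rcases le_total t (1 / 2) with h' | h'
    · exact ⟨t + h, ⟨by linarith [ht.1], by linarith⟩, by simp [h0.le]⟩
    · exact ⟨t - h, ⟨by linarith, by linarith [ht.2]⟩, by simp [h0.le]⟩
  have B0 := (norm_nonneg _).trans (hB t ht)
  have k := Convex.norm_image_sub_le_of_norm_hasDerivWithin_le (f := fun u => g u - u • g' t)
    (f' := fun u => g' u - g' t) (s := Icc 0 1 ∩ closedBall t h) (C := B * h) (x := t) (y := s)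
    (fun u hu => by
      simpa using ((h1 u hu.1).fun_sub ((hasDerivAt_id u).smul_const (g' t))).hasDerivWithinAt)
    (fun u hu => (Convex.norm_image_sub_le_of_norm_hasDerivWithin_le
      (fun v hv => (h2 v hv).hasDerivWithinAt) hB (convex_Icc 0 1) ht hu.1).trans
      (mul_le_mul_of_nonneg_left (mem_closedBall_iff_norm.1 hu.2) B0))
    ((convex_Icc 0 1).inter (convex_closedBall t h)) ⟨ht, mem_closedBall_self h0.le⟩
    ⟨hs, mem_closedBall_iff_norm.2 e.le⟩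
  have e1 : (s - t) • g' t = g s - g t - (g s - s • g' t - (g t - t • g' t)) := by
    rw [sub_smul]; abel
  have e2 : h * ‖g' t‖ ≤ A + A + B * h * h := by
    rw [← e, ← norm_smul, e1]
    exact norm_sub_le_of_le (norm_sub_le_of_le (hA s hs) (hA t ht)) (by rwa [← e] at k)
  rw [div_add' _ _ _ h0.ne', le_div_iff₀ h0]
  linarith

def Ld (M : ℕ → ℝ) : Prop := (∀ k, 0 ≤ M k) ∧
  ∀ k h, 0 < h → h ≤ 1 / 2 → M (k + 1) ≤ 2 * M k / h + h * M (k + 2)

lemma num1 : ∀ (k : ℕ) (ε : ℝ), 0 < ε → ∃ C, 0 ≤ C ∧ ∀ M, Ld M → M k ≤ ε * M (k + 1) + C * M 0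
  | 0, ε, hε => ⟨1, zero_le_one, fun M h => by linarith [mul_nonneg hε.le (h.1 (0 + 1))]⟩
  | k + 1, ε, hε => by
    obtain ⟨h, h0, h1, h2⟩ : ∃ h : ℝ, 0 < h ∧ h ≤ 1 / 2 ∧ 2 * h ≤ ε :=
      ⟨min (1 / 2) (ε / 2), by positivity, min_le_left _ _, by linarith [min_le_right (1 / 2) (ε / 2)]⟩
    obtain ⟨C, C0, hC⟩ := num1 k (h / 4) (by positivity)
    refine ⟨4 * C / h, by positivity, fun M hM => ?_⟩
    have a1 := hM.2 k h h0 h1
    have a2 : 2 * M k / h ≤ 2 * (h / 4 * M (k + 1) + C * M 0) / h := by gcongr; exact hC M hM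
    have a3 : 2 * (h / 4 * M (k + 1) + C * M 0) / h = M (k + 1) / 2 + 4 * C / h * M 0 / 2 := by
      field_simp; ring
    have a4 := mul_le_mul_of_nonneg_right h2 (hM.1 (k + 2))
    linarith

lemma num2 : ∀ N : ℕ, ∃ C, 1 ≤ C ∧ ∀ M, Ld M → ∀ j ≤ N, M j ≤ C * (M 0 + M N)
  | 0 => ⟨1, le_rfl, fun M h j hj => by
      obtain rfl := Nat.le_zero.1 hj
      linarith [h.1 0]⟩
  | N + 1 => by
    obtain ⟨C, C1, hC⟩ := num2 N
    obtain ⟨C', C0, hC'⟩ := num1 N 1 one_pos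
    have h1 : 1 ≤ C * (1 + C') := one_le_mul_of_one_le_of_one_le C1 (by linarith)
    refine ⟨C * (1 + C'), h1, fun M hM j hj => ?_⟩
    have m0 := hM.1 0
    have m1 := hM.1 (N + 1)
    rcases hj.eq_or_lt with rfl | hj
    · nlinarith
    · refine (hC M hM j (by omega)).trans ?_
      rw [mul_assoc]
      refine mul_le_mul_of_nonneg_left ?_ (by linarith)
      nlinarith [hC' M hM]

end Int

theorem intS : IntS := by
  intro N
  obtain ⟨C, C1, hC⟩ := Int.num2 N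
  refine ⟨C, C1, fun V _ _ _ f m0 mN hf h0 hN j hj t ht => ?_⟩
  choose τ hτ hm using fun k => isCompact_Icc.exists_isMaxOn (nonempty_Icc.2 zero_le_one)
    (f := fun t => ‖iteratedDeriv k f t‖) fun u hu =>
      (Int.sm (hf u hu) k).continuousAt.norm.continuousWithinAt
  have := hC (fun k => ‖iteratedDeriv k f (τ k)‖) ⟨fun _ => norm_nonneg _, fun k h h1 h2 =>
    Int.landau (fun u hu => Int.der (hf u hu) k) (fun u hu => Int.der (hf u hu) (k + 1))
      (fun u hu => hm k hu) (fun u hu => hm (k + 2) hu) h1 h2 (hτ _)⟩ j hj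
  refine (hm j ht).trans (this.trans (mul_le_mul_of_nonneg_left ?_ (by linarith)))
  exact add_le_add (by simpa using h0 _ (hτ 0)) (hN _ (hτ N))

theorem stairS : StairS := by
  refine ⟨fun B ε t hε h => ?_, fun X _ D s C hs hD h t ht => ?_⟩
  · by_contra hn
    push Not at hn
    rw [inter_eq_right.2 hn] at h
    simp at h
  refine eq_of_forall_dist_le fun η hη => ?_
  obtain ⟨δ, δ0, hδ⟩ := Metric.uniformContinuousOn_iff.1
    (isCompact_Icc.uniformContinuousOn_of_continuous hD) (η / 3) (by positivity)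
  obtain ⟨ε, ε0, h1, Gd, h2, h3⟩ := h (min (δ / 2) (η / 3 / (s * |C| + 1))) (by positivity)
  have e1 := (lt_min_iff.1 h1).1
  have e2 := (lt_div_iff₀ (by positivity)).1 (lt_min_iff.1 h1).2
  have z : (0 : ℝ) ∈ Icc 0 s := ⟨le_rfl, hs⟩
  have key : ∀ k : ℕ, (k + 1) * ε ≤ s → ∃ u ∈ Icc (k * ε) ((k + 1) * ε), u ∈ Gd ∧
      dist (D u) (D 0) ≤ η / 3 + k * (|C| * ε ^ 2) := by
    intro k
    induction k with
    | zero =>
      intro hk
      simp only [Nat.cast_zero, zero_add, one_mul, zero_mul, add_zero] at hk ⊢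
      obtain ⟨u, hu, hG⟩ := h2 0 le_rfl (by linarith)
      rw [zero_add] at hu
      refine ⟨u, hu, hG, (hδ u ⟨hu.1, hu.2.trans hk⟩ 0 z ?_).le⟩
      rw [Real.dist_eq, sub_zero, abs_of_nonneg hu.1]
      linarith [hu.2]
    | succ k ih =>
      intro hk
      push_cast at hk ⊢
      have k0 : 0 ≤ (k : ℝ) * ε := by positivity
      obtain ⟨u, hu, hG, hd⟩ := ih (by linarith)
      obtain ⟨u', hu', hG'⟩ := h2 ((k + 1) * ε) (by positivity) (by linarith)
      have d := h3 u' hG' u hG ⟨by linarith [hu'.1], by linarith [hu'.2]⟩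
        ⟨by linarith [hu.1], by linarith [hu.2]⟩
        (abs_le.2 ⟨by linarith [hu'.1, hu.2], by linarith [hu'.2, hu.1]⟩)
      refine ⟨u', ⟨hu'.1, by linarith [hu'.2]⟩, hG', ?_⟩
      have d' := mul_le_mul_of_nonneg_right (le_abs_self C) (sq_nonneg ε)
      linarith [dist_triangle (D u') (D u) (D 0)]
  have f1 := (le_div_iff₀ ε0).1 (Nat.floor_le (div_nonneg ht.1 ε0.le))
  have f2 := (div_lt_iff₀ ε0).1 (Nat.lt_floor_add_one (t / ε))
  generalize ⌊t / ε⌋₊ = m at f1 f2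
  rcases m with _ | k
  · refine (hδ t ht 0 z ?_).le.trans (by linarith)
    rw [Real.dist_eq, sub_zero, abs_of_nonneg ht.1]
    simp only [Nat.cast_zero, zero_add, one_mul] at f2
    linarith
  · push_cast at f1 f2
    have k0 : 0 ≤ (k : ℝ) * ε := by positivity
    obtain ⟨u, hu, -, hd⟩ := key k (f1.trans ht.2)
    have d := hδ t ht u ⟨by linarith [hu.1], by linarith [hu.2, ht.2]⟩ (by
      rw [Real.dist_eq, abs_lt]
      constructor <;> linarith [hu.1, hu.2])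
    have d' : k * ε * (|C| * ε) ≤ s * (|C| * ε) :=
      mul_le_mul_of_nonneg_right (by linarith [ht.2]) (by positivity)
    nlinarith [dist_triangle (D t) (D u) (D 0)]

end Crest.Agent.N221.PS
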