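import Crest.Agent.N221.A1.PAll
import Crest.Agent.N221.X.Int

/-! Row 221, A1: Markov inequality along a chain of contractions (`MkS`): the sup on the ball at
time `0` controls every jet at the base point at cost `C e^{δ T}`. -/

set_option autoImplicit false
set_option linter.unusedSectionVars false

open Set Metric Finset Filter
open scoped ContDiff Nat Topology

namespace Crest.Agent.N221.PS

/-- MARKOV along a chain -/
def MkS : Prop := ∀ (E V : Type) [NormedAddCommGroup E] [NormedSpace ℝ E] [FiniteDimensional ℝ E]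
  [NormedAddCommGroup V] [NormedSpace ℝ V] [FiniteDimensional ℝ V] (R q b α δ : ℝ) (c d : ℕ → ℝ)
  (n' : ℕ), 0 < R → 0 < q → q < 1 → 1 ≤ b → 0 < α → 0 < δ → ∃ C : ℝ, 0 < C ∧
  ∀ (T : ℕ) (ψ : ℕ → E → E) (A : ℕ → E → V →L[ℝ] V) (f : ℕ → E → V) (s : ℝ),
    Chain R q b c T ψ A f →
    (∀ k, ∀ x ∈ ball (0 : E) R, ‖iteratedFDeriv ℝ k (f T) x‖ ≤ d k * Real.exp (α * T)) →
    (∀ x ∈ ball (0 : E) R, ‖f 0 x‖ ≤ s) →
    ∀ i ≤ n', ‖iteratedFDeriv ℝ i (f 0) 0‖ ≤ C * Real.exp (δ * T) * (s + Real.exp (-(α * T)))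

namespace Mk

variable {E V : Type} [NormedAddCommGroup E] [NormedSpace ℝ E]
  [NormedAddCommGroup V] [NormedSpace ℝ V]

/-- local bound of a derivative -/
lemma loc_bd {g : E → V} {R : ℝ} (hR : 0 < R) (hg : ContDiffOn ℝ ∞ g (ball 0 R)) (k : ℕ) :
    ∃ r B : ℝ, 0 < r ∧ r ≤ R ∧ 0 ≤ B ∧ ∀ x ∈ ball (0 : E) r, ‖iteratedFDeriv ℝ k g x‖ ≤ B := by
  have h0 : ContDiffAt ℝ ∞ g 0 := hg.contDiffAt (ball_mem_nhds _ hR)
  have h1 : ContinuousAt (iteratedFDeriv ℝ k g) 0 :=
    (h0.iteratedFDeriv_right (m := 0) (i := k) (by exact_mod_cast le_top)).continuousAt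
  have h2 := (Metric.continuousAt_iff.1 h1) 1 one_pos
  obtain ⟨r, hr, h3⟩ := h2
  refine ⟨min r R, ‖iteratedFDeriv ℝ k g 0‖ + 1, by positivity, min_le_right _ _, by positivity, ?_⟩
  intro x hx
  have := h3 (x := x) (lt_of_lt_of_le hx (min_le_left _ _))
  rw [dist_eq_norm] at this
  have h4 := norm_add_le (iteratedFDeriv ℝ k g x - iteratedFDeriv ℝ k g 0) (iteratedFDeriv ℝ k g 0)
  rw [sub_add_cancel] at h4
  linarith

/-- a smooth function of order `m + 1` has zero `m`-jet -/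
lemma jet_zero [CompleteSpace V] {g : E → V} {R K : ℝ} {m : ℕ} (hR : 0 < R)
    (hg : ContDiffOn ℝ ∞ g (ball 0 R)) (h : ∀ x ∈ ball (0 : E) R, ‖g x‖ ≤ K * ‖x‖ ^ (m + 1))
    {i : ℕ} (hi : i ≤ m) : iteratedFDeriv ℝ i g 0 = 0 := by
  obtain ⟨C, hC, hint⟩ := X.int_all (m + 1)
  obtain ⟨r, B, hr, hrR, hB, hb⟩ := loc_bd hR hg (m + 1)
  have key : ∀ ε, 0 < ε → ε ≤ min r 1 → ‖iteratedFDeriv ℝ i g 0‖ ≤ C * (|K| + B) * ε := by
    intro ε hε hε'
    have e1 : ε ≤ r := hε'.trans (min_le_left _ _)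
    have e2 : ε ≤ 1 := hε'.trans (min_le_right _ _)
    have h1 := hint E V g 0 ε (|K| * ε ^ (m + 1)) B hε
      ((hg.mono (ball_subset_ball (e1.trans hrR))).of_le (by exact_mod_cast le_top))
      (fun y hy => by
        have a1 := h y (ball_subset_ball (e1.trans hrR) hy)
        have a2 : ‖y‖ ≤ ε := (mem_ball_zero_iff.1 hy).le
        exact a1.trans (mul_le_mul (le_abs_self _) (by gcongr) (by positivity) (abs_nonneg _)))
      (fun y hy => hb y (ball_subset_ball e1 hy)) i (by omega) 0 (mem_ball_self (by positivity))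
    have a3 : |K| * ε ^ (m + 1) / ε ^ i = |K| * ε ^ (m + 1 - i) := by
      rw [mul_div_assoc, pow_sub₀ _ hε.ne' (by omega : i ≤ m + 1), div_eq_mul_inv]
    have a4 : ε ^ (m + 1 - i) ≤ ε := by
      calc ε ^ (m + 1 - i) ≤ ε ^ 1 := pow_le_pow_of_le_one hε.le e2 (by omega)
        _ = ε := pow_one _
    rw [a3] at h1
    refine h1.trans ?_
    rw [mul_assoc C]
    refine mul_le_mul_of_nonneg_left ?_ hC.le
    have := abs_nonneg K
    nlinarith
  have h2 : ‖iteratedFDeriv ℝ i g 0‖ ≤ 0 := by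
    refine le_of_forall_pos_le_add fun η hη => ?_
    have hp : 0 < C * (|K| + B) + 1 := by positivity
    have h3 := key (min (min r 1) (η / (C * (|K| + B) + 1))) (by positivity) (min_le_left _ _)
    have h4 := min_le_right (min r 1) (η / (C * (|K| + B) + 1))
    rw [le_div_iff₀ hp] at h4
    have h5 : 0 < min (min r 1) (η / (C * (|K| + B) + 1)) := by positivity
    nlinarith
  exact norm_le_zero_iff.1 h2

variable [FiniteDimensional ℝ E] [FiniteDimensional ℝ V]

/-- the jet of the Taylor polynomial -/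
lemma jet_tay {f : E → V} {R : ℝ} {m : ℕ} (hR : 0 < R) (hf : ContDiffOn ℝ ∞ f (ball 0 R))
    {i : ℕ} (hi : i ≤ m) : iteratedFDeriv ℝ i f 0 = iteratedFDeriv ℝ i (tay m f) 0 := by
  have : CompleteSpace V := FiniteDimensional.complete ℝ V
  obtain ⟨r, B, hr, hrR, -, hb⟩ := loc_bd hR hf (m + 1)
  have hf' := hf.mono (ball_subset_ball hrR)
  have hP := (tay_ E V m).2.2.2.2 f
  have h1 := jet_zero hr (hf'.sub hP.contDiffOn) ((tay_ E V m).1 f r B hf' hb) hi
  have h2 : iteratedFDeriv ℝ i (fun x => f x - tay m f x) 0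
      = iteratedFDeriv ℝ i f 0 - iteratedFDeriv ℝ i (tay m f) 0 :=
    iteratedFDeriv_sub_apply
      ((hf.contDiffAt (ball_mem_nhds _ hR)).of_le (by exact_mod_cast le_top))
      (hP.contDiffAt.of_le (by exact_mod_cast le_top))
  rw [h2] at h1
  exact sub_eq_zero.1 h1

/-- jets from the sup of the Taylor polynomial on a small ball -/
lemma jet_le (m : ℕ) {R : ℝ} (hR : 0 < R) : ∃ C : ℝ, 0 < C ∧ ∀ (f : E → V) (r η : ℝ),
    ContDiffOn ℝ ∞ f (ball 0 R) → 0 < r → r ≤ R → (∀ x : E, ‖x‖ ≤ r → ‖tay m f x‖ ≤ η) →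
    ∀ i ≤ m, ‖iteratedFDeriv ℝ i f 0‖ ≤ C * η / r ^ i := by
  have : CompleteSpace V := FiniteDimensional.complete ℝ V
  obtain ⟨C, hC, hint⟩ := X.int_all (m + 1)
  obtain ⟨C1, hC1, hne⟩ := ne_ E V m (m + 1) R hR
  refine ⟨C * (1 + C1 * (6 * R) ^ m * R), by positivity, fun f r η hf hr hrR hη i hi => ?_⟩
  have hη0 : 0 ≤ η := (norm_nonneg _).trans (hη 0 (by simpa using hr.le))
  have hP := (tay_ E V m).2.2.2.2 f
  have h1 := (tay_ E V m).2.1 f r R η hr hrR hη
  have h2 := hint E V (tay m f) 0 r η (C1 * ((6 * R / r) ^ m * η)) hr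
    (hP.contDiffOn.of_le (by exact_mod_cast le_top))
    (fun y hy => hη y (mem_ball_zero_iff.1 hy).le)
    (fun y hy => hne f _ h1 (m + 1) le_rfl y ((mem_ball_zero_iff.1 hy).le.trans hrR))
    i (by omega) 0 (mem_ball_self (by positivity))
  rw [jet_tay hR hf hi]
  refine h2.trans ?_
  have e : C1 * ((6 * R / r) ^ m * η) * r ^ (m + 1 - i) = C1 * (6 * R) ^ m * r * η / r ^ i := by
    rw [pow_sub₀ _ hr.ne' (by omega), div_pow, pow_succ]; field_simp
  rw [e, ← add_div, mul_assoc C, mul_div_assoc C]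
  refine mul_le_mul_of_nonneg_left (div_le_div_of_nonneg_right ?_ (by positivity)) hC.le
  have : C1 * (6 * R) ^ m * r * η ≤ C1 * (6 * R) ^ m * R * η := by gcongr
  linarith

/-- the jet at the base point -/
noncomputable def J (n : ℕ) (f : E → V) : ℝ := ∑ i ∈ range (n + 1), ‖iteratedFDeriv ℝ i f 0‖

omit [FiniteDimensional ℝ E] [FiniteDimensional ℝ V] in
lemma le_J {n i : ℕ} (f : E → V) (hi : i ≤ n) : ‖iteratedFDeriv ℝ i f 0‖ ≤ J n f :=
  single_le_sum (f := fun i => ‖iteratedFDeriv ℝ i f 0‖) (fun _ _ => norm_nonneg _)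
    (mem_range.2 (Nat.lt_succ_of_le hi))

omit [FiniteDimensional ℝ E] [FiniteDimensional ℝ V] in
lemma J_nonneg (n : ℕ) (f : E → V) : 0 ≤ J n f := sum_nonneg fun _ _ => norm_nonneg _

omit [FiniteDimensional ℝ E] [FiniteDimensional ℝ V] in
/-- pull back of the jet -/
lemma J_step {R : ℝ} (hR : 0 < R) (c : ℕ → ℝ) (n : ℕ) : ∃ K : ℝ, 1 ≤ K ∧
    ∀ (ψ : E → E) (A : E → V →L[ℝ] V) (f g : E → V), ContDiffOn ℝ ∞ ψ (ball 0 R) →
      ContDiffOn ℝ ∞ A (ball 0 R) → MapsTo ψ (ball 0 R) (ball 0 R) → ψ 0 = 0 →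
      ContDiffOn ℝ ∞ g (ball 0 R) →
      (∀ k, ‖iteratedFDeriv ℝ k ψ 0‖ ≤ c k) → (∀ k, ‖iteratedFDeriv ℝ k A 0‖ ≤ c k) →
      (∀ x ∈ ball (0 : E) R, f x = A x (g (ψ x))) → J n f ≤ K * J n g := by
  obtain ⟨D, D1, D2⟩ : ∃ D : ℝ, 1 ≤ D ∧ ∀ i ≤ n, c i ≤ D :=
    ⟨1 + ∑ i ∈ range (n + 1), |c i|, le_add_of_nonneg_right (by positivity), fun i hi =>
      (le_abs_self _).trans ((single_le_sum (f := fun i => |c i|) (fun _ _ => abs_nonneg _)
        (mem_range.2 (Nat.lt_succ_of_le hi))).trans (by linarith))⟩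
  set S : ℝ := ∑ k ∈ range (n + 1), ∑ i ∈ range (k + 1),
    k.choose i * D * ((k - i)! * D ^ (k - i)) with hS
  have hS0 : 0 ≤ S := by positivity
  refine ⟨1 + S, by linarith, fun ψ A f g h1 h2 h3 h0 hg h4 h5 h6 => ?_⟩
  have hx : (0 : E) ∈ ball (0 : E) R := mem_ball_self hR
  have hu := (isOpen_ball (x := (0 : E)) (ε := R)).uniqueDiffOn (𝕜 := ℝ)
  have hJ := J_nonneg n g
  have : J n f ≤ S * J n g := by
    rw [hS, sum_mul]
    refine sum_le_sum fun k hk => ?_
    have hk' := Nat.lt_succ_iff.1 (mem_range.1 hk)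
    have e : iteratedFDeriv ℝ k f 0
        = iteratedFDerivWithin ℝ k (fun x => A x ((g ∘ ψ) x)) (ball 0 R) 0 := by
      rw [← iteratedFDerivWithin_of_isOpen _ isOpen_ball hx]
      exact iteratedFDerivWithin_congr (fun x hx => h6 x hx) hx k
    rw [e, sum_mul]
    refine (norm_iteratedFDerivWithin_clm_apply h2 (hg.comp h1 h3) hu hx
      (by exact_mod_cast le_top)).trans (sum_le_sum fun i hi => ?_)
    have hi' := Nat.lt_succ_iff.1 (mem_range.1 hi)
    have a1 := norm_iteratedFDerivWithin_comp_le (n := k - i) (C := J n g) (D := D)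
      hg h1 (WithTop.coe_le_coe.2 le_top) hu hu h3 hx
      (fun l hl => by
        rw [h0, iteratedFDerivWithin_of_isOpen _ isOpen_ball hx]
        exact le_J g (by omega))
      fun l l1 hl => by
        rw [iteratedFDerivWithin_of_isOpen _ isOpen_ball hx]
        exact (h4 l).trans ((D2 l (by omega)).trans (le_self_pow₀ D1 (by omega)))
    rw [iteratedFDerivWithin_of_isOpen i isOpen_ball hx]
    calc _ ≤ k.choose i * D * ((k - i)! * J n g * D ^ (k - i)) := by
          gcongr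
          exact (h5 i).trans (D2 i (by omega))
      _ = _ := by ring
  nlinarith

variable {R q b : ℝ} {c : ℕ → ℝ} {T : ℕ} {ψ : ℕ → E → E}
  {A : ℕ → E → V →L[ℝ] V} {f : ℕ → E → V}

omit [FiniteDimensional ℝ E] [FiniteDimensional ℝ V] in
/-- the covered ball -/
lemma cover (h : Chain R q b c T ψ A f) (hR : 0 < R) (hb : 1 ≤ b) {s : ℝ}
    (hs : ∀ x ∈ ball (0 : E) R, ‖f 0 x‖ ≤ s) (k : ℕ) (hk : k ≤ T) :
    ∀ y : E, ‖y‖ < R / b ^ k → ‖f k y‖ ≤ b ^ k * s := by
  induction k with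
  | zero => intro y hy; simpa using hs y (mem_ball_zero_iff.2 (by simpa using hy))
  | succ k ih =>
    intro y hy
    have hb0 : 0 < b := by linarith
    have hbk : 1 ≤ b ^ k := one_le_pow₀ hb
    have h1 : b * ‖y‖ < R / b ^ k := by
      rw [lt_div_iff₀ (by positivity)] at hy ⊢
      rw [pow_succ] at hy; linarith
    have h2 : R / b ^ k ≤ R := div_le_self hR.le hbk
    obtain ⟨x, hx, hxy⟩ := h.sur k (by omega) y (by rw [lt_div_iff₀ hb0]; linarith)
    have hxb : x ∈ ball (0 : E) R := mem_ball_zero_iff.2 (by linarith)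
    have h3 := ih (by omega) x (by linarith)
    have h4 := h.iA k (by omega) x hxb (f (k + 1) y)
    rw [← hxy, ← h.rel k (by omega) x hxb, hxy] at h4
    calc ‖f (k + 1) y‖ ≤ b * ‖f k x‖ := h4
      _ ≤ b * (b ^ k * s) := by gcongr
      _ = b ^ (k + 1) * s := by ring

/-- remainder constants in terms of the sup -/
lemma rem (hR : 0 < R) (hq : 0 < q) (hq1 : q < 1) (hb : 1 ≤ b) (c : ℕ → ℝ) (n : ℕ) :
    ∃ K : ℝ, 0 ≤ K ∧ ∀ (T : ℕ) (ψ : ℕ → E → E) (A : ℕ → E → V →L[ℝ] V) (f : ℕ → E → V)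
      (M : ℕ → ℝ) (D : ℝ), Chain R q b c T ψ A f → 0 ≤ D →
      (∀ x ∈ ball (0 : E) R, ‖iteratedFDeriv ℝ (n + 1) (f T) x‖ ≤ D) →
      (∀ j ≤ T, ∀ x ∈ ball (0 : E) R, ‖f j x‖ ≤ M j) → ∀ k ≤ T,
      0 ≤ rrec (2 * b * q ^ (n + 1)) D (fun k => K * M (T - k)) k ∧ ∀ x ∈ ball (0 : E) R,
        ‖f (T - k) x - tay n (f (T - k)) x‖ ≤
          rrec (2 * b * q ^ (n + 1)) D (fun k => K * M (T - k)) k * ‖x‖ ^ (n + 1) := by
  have : CompleteSpace V := FiniteDimensional.complete ℝ V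
  obtain ⟨K1, r0, hK1, -, -, hst⟩ := step_ E V R q b c n hR hq hq1 hb
  obtain ⟨r, hr, hrR, hrK⟩ : ∃ r : ℝ, 0 < r ∧ r < R ∧ K1 * (6 * R) ^ n * r ≤ b * q ^ (n + 1) := by
    have hp : 0 < K1 * (6 * R) ^ n := by positivity
    refine ⟨min (R / 2) (b * q ^ (n + 1) / (K1 * (6 * R) ^ n)), by positivity,
      (min_le_left _ _).trans_lt (by linarith), ?_⟩
    have := min_le_right (R / 2) (b * q ^ (n + 1) / (K1 * (6 * R) ^ n))
    rw [le_div_iff₀ hp] at this
    linarith
  refine ⟨K1 * (6 * R / r) ^ n, by positivity, fun T ψ A f M D hch hD hd hle k => ?_⟩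
  have hM0 : ∀ j ≤ T, 0 ≤ M j := fun j hj => (norm_nonneg _).trans (hle j hj 0 (mem_ball_self hR))
  set ρ' := rrec (2 * b * q ^ (n + 1)) D (fun k => K1 * (6 * R / r) ^ n * M (T - k)) with hρ'
  induction k with
  | zero =>
    intro _
    refine ⟨by simp only [hρ', rrec]; exact hD, ?_⟩
    simp only [hρ', rrec, Nat.sub_zero]
    exact (tay_ E V n).1 (f T) R _ hch.smf hd
  | succ k ih =>
    intro hk
    obtain ⟨h0, h1⟩ := ih (by omega)
    have hMk := hM0 (T - k) (by omega)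
    have e : ρ' (k + 1) = 2 * b * q ^ (n + 1) * ρ' k + K1 * (6 * R / r) ^ n * M (T - k) := by
      simp only [hρ', rrec]
    refine ⟨by rw [e]; positivity, ?_⟩
    have e2 : T - k = T - (k + 1) + 1 := by omega
    have hp : ∀ x : E, ‖x‖ ≤ R →
        ‖tay n (f (T - k)) x‖ ≤ (6 * R / r) ^ n * (M (T - k) + ρ' k * r ^ (n + 1)) := by
      refine (tay_ E V n).2.1 _ r R _ hr hrR.le ?_
      intro x hx
      have hx' : x ∈ ball (0 : E) R := mem_ball_zero_iff.2 (hx.trans_lt hrR)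
      have a1 := h1 x hx'
      have a2 := hle (T - k) (by omega) x hx'
      have a3 : ρ' k * ‖x‖ ^ (n + 1) ≤ ρ' k * r ^ (n + 1) := by gcongr
      have a4 := norm_sub_le (f (T - k) x) (f (T - k) x - tay n (f (T - k)) x)
      rw [sub_sub_cancel] at a4
      linarith
    intro x hx
    have h2 := ((hst T ψ A f hch).2 (T - (k + 1)) (by omega)).1 (ρ' k) _ h0
      (by rw [← e2]; exact h1) (by rw [← e2]; exact hp) x hx
    refine h2.trans (mul_le_mul_of_nonneg_right ?_ (by positivity))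
    rw [e]
    have a1 : K1 * ((6 * R / r) ^ n * (M (T - k) + ρ' k * r ^ (n + 1)))
        = K1 * (6 * R / r) ^ n * M (T - k) + K1 * (6 * R) ^ n * r * ρ' k := by
      rw [div_pow, pow_succ]; field_simp
    have a2 := mul_le_mul_of_nonneg_right hrK h0
    linarith

/-- the Taylor polynomial on the ball `t` from the covered ball -/
lemma tay_small {g : E → V} {m : ℕ} {ρ u t w : ℝ} (hR : 0 < R) (ht : 0 < t) (htR : t ≤ R)
    (hw : 1 ≤ w) (hρ : 0 ≤ ρ) (h1 : ∀ y : E, ‖y‖ < R / w → ‖g y‖ ≤ u)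
    (h2 : ∀ x ∈ ball (0 : E) R, ‖g x - tay m g x‖ ≤ ρ * ‖x‖ ^ (m + 1)) :
    ∀ x : E, ‖x‖ ≤ t → ‖tay m g x‖ ≤ (12 * 6 ^ m * w) ^ m * u + ρ * t ^ (m + 1) := by
  have : CompleteSpace V := FiniteDimensional.complete ℝ V
  have h6 : (1 : ℝ) ≤ 6 ^ m := one_le_pow₀ (by norm_num)
  have hu : 0 ≤ u := (norm_nonneg _).trans (h1 0 (by rw [norm_zero]; positivity))
  set r := t / (2 * 6 ^ m * w) with hr
  have hw' : 1 ≤ 2 * 6 ^ m * w := by nlinarith
  have hr0 : 0 < r := by positivity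
  have hrt : r ≤ t := div_le_self ht.le hw'
  have hr1 : r < R / w := by
    rw [hr, div_lt_div_iff₀ (by positivity) (by positivity)]
    have : t * w ≤ R * w := by gcongr
    have h3 : 0 < R * w := by positivity
    nlinarith
  have hRw : R / w ≤ R := div_le_self hR.le hw
  intro x hx
  have h3 := (tay_ E V m).2.1 g r t (u + ρ * r ^ (m + 1)) hr0 hrt (fun y hy => by
    have a1 := h1 y (hy.trans_lt hr1)
    have a2 := h2 y (mem_ball_zero_iff.2 (by linarith))
    have a3 : ρ * ‖y‖ ^ (m + 1) ≤ ρ * r ^ (m + 1) := by gcongr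
    have a4 := norm_sub_le (g y) (g y - tay m g y)
    rw [sub_sub_cancel] at a4
    linarith) x hx
  refine h3.trans ?_
  have e1 : 6 * t / r = 12 * 6 ^ m * w := by rw [hr]; field_simp; norm_num
  have e2 : (6 * t / r) ^ m * (ρ * r ^ (m + 1)) = ρ * t ^ m * (6 ^ m * r) := by
    rw [div_pow, pow_succ, mul_pow]; field_simp
  have e3 : 6 ^ m * r ≤ t := by
    rw [hr, ← mul_div_assoc, div_le_iff₀ (by positivity)]
    have : 0 < t * 6 ^ m := by positivity
    nlinarith
  rw [mul_add, e2, e1, pow_succ t m, ← mul_assoc ρ]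
  gcongr

end Mk

open Mk in
set_option maxHeartbeats 1600000 in
theorem mk : MkS := by
  intro E V _ _ _ _ _ _ R q b α δ c d n' hR hq hq1 hb hα hδ
  obtain ⟨K', hK', hJ⟩ := J_step (E := E) (V := V) hR c n'
  choose K1 hK1 hrem using fun n => rem (E := E) (V := V) hR hq hq1 hb c n
  choose C1 hC1 hjet using fun m => jet_le (E := E) (V := V) m hR
  obtain ⟨K0, r00, -, -, -, hsm⟩ := step_ E V R q b c 0 hR hq hq1 hb
  set b0 := max b K' with hb0
  have hqn : 0 < q ^ n' := by positivity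
  have hqn1 : q ^ n' ≤ 1 := pow_le_one₀ hq.le hq1.le
  have hb01 : 1 ≤ b0 := hb.trans (le_max_left _ _)
  set b1 := b0 / q ^ n' with hb1
  have hb0b1 : b0 ≤ b1 := by rw [hb1, le_div_iff₀ hqn]; nlinarith
  have hbb1 : b ≤ b1 := (le_max_left _ _).trans hb0b1
  have hKb1 : K' ≤ b1 := (le_max_right _ _).trans hb0b1
  set X : ℕ → ℝ := fun n => 1 + (n' + 1) * C1 (n + n') * (max 1 R⁻¹) ^ n' with hX
  have hX1 : ∀ n, 1 ≤ X n := fun n => by
    have := hC1 (n + n'); simp only [hX]; exact le_add_of_nonneg_right (by positivity)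
  set W : ℕ → ℝ := fun n => 2 * X n * (max 1 R) ^ n' with hW
  have hW0 : ∀ n, 0 ≤ W n := fun n => by have := hX1 n; simp only [hW]; positivity
  set K : ℕ → ℝ := fun n => W n * K1 (n + n') + X n * (12 * 6 ^ (n + n')) ^ (n + n') with hK
  have hKa : ∀ n, 0 ≤ W n * K1 (n + n') := fun n => mul_nonneg (hW0 n) (hK1 _)
  have hKb : ∀ n, 0 ≤ X n * (12 * 6 ^ (n + n')) ^ (n + n') := fun n => by
    have := hX1 n; positivity
  set d' : ℕ → ℝ := fun k => match k with
    | 0 => max (d 0) 0 + ∑ i ∈ range (n' + 1), max (d i) 0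
    | n + 1 => W n * max (d (n + n' + 1)) 0 with hd'
  obtain ⟨n0, C, hC, hnum⟩ := numS q b1 (b ^ (n' + 1)) R α δ d' K hq hq1 (hb.trans hbb1)
    (one_le_pow₀ hb) hR hα hδ (fun n => add_nonneg (hKa n) (hKb n)) (fun k => by
      cases k with
      | zero => simp only [hd']; positivity
      | succ n => simp only [hd']; have := hW0 n; positivity)
  refine ⟨C, hC, fun T ψ A f s hch hd hs => ?_⟩
  have hs0 : 0 ≤ s := (norm_nonneg _).trans (hs 0 (mem_ball_self hR))
  have hE : 0 < Real.exp (α * T) := Real.exp_pos _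
  have hd2 : ∀ k, ∀ x ∈ ball (0 : E) R,
      ‖iteratedFDeriv ℝ k (f T) x‖ ≤ max (d k) 0 * Real.exp (α * T) := fun k x hx =>
    (hd k x hx).trans (mul_le_mul_of_nonneg_right (le_max_left _ _) hE.le)
  have hfT : ∀ x ∈ ball (0 : E) R, ‖f T x‖ ≤ max (d 0) 0 * Real.exp (α * T) := fun x hx => by
    simpa using hd2 0 x hx
  set M : ℕ → ℝ := fun j => sSup ((fun x => ‖f j x‖) '' ball 0 R) with hM
  have hle : ∀ j ≤ T, ∀ x ∈ ball (0 : E) R, ‖f j x‖ ≤ M j := by
    intro j hj x hx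
    refine le_csSup ⟨b ^ (T - j) * (max (d 0) 0 * Real.exp (α * T)), ?_⟩ ⟨x, hx, rfl⟩
    rintro _ ⟨x, hx, rfl⟩
    obtain ⟨y, hy, -, h2⟩ := hch.iter hq hq1 hb j (T - j) (by omega) x hx
    rw [show j + (T - j) = T by omega] at h2
    exact h2.trans (mul_le_mul_of_nonneg_left (hfT y hy) (by positivity))
  have hsup : ∀ j (m : ℝ), (∀ x ∈ ball (0 : E) R, ‖f j x‖ ≤ m) → M j ≤ m := by
    intro j m h
    refine csSup_le ⟨_, 0, mem_ball_self hR, rfl⟩ ?_
    rintro _ ⟨x, hx, rfl⟩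
    exact h x hx
  have hM0 : ∀ j ≤ T, 0 ≤ M j := fun j hj => (norm_nonneg _).trans (hle j hj 0 (mem_ball_self hR))
  have h0 : (0 : E) ∈ ball (0 : E) R := mem_ball_self hR
  have hJ1 : ∀ j < T, J n' (f j) ≤ K' * J n' (f (j + 1)) := fun j hj =>
    hJ (ψ j) (A j) (f j) (f (j + 1)) (hch.sψ j hj) (hch.sA j hj)
      (fun x hx => by
        have a1 := hch.con j hj x hx
        have a2 := mem_ball_zero_iff.1 hx
        rw [mem_ball_zero_iff]; nlinarith [norm_nonneg x])
      (by have := hch.con j hj 0 h0; simpa using this) ((hsm T ψ A f hch).1 (j + 1) hj)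
      (fun k => hch.dψ j hj k 0 h0) (fun k => hch.dA j hj k 0 h0) (hch.rel j hj)
  set ρ' : ℕ → ℕ → ℝ := fun m => rrec (2 * b * q ^ (m + 1)) (max (d (m + 1)) 0 * Real.exp (α * T))
    (fun k => K1 m * M (T - k)) with hρ'
  have hr : ∀ m, ∀ k ≤ T, 0 ≤ ρ' m k ∧ ∀ x ∈ ball (0 : E) R,
      ‖f (T - k) x - tay m (f (T - k)) x‖ ≤ ρ' m k * ‖x‖ ^ (m + 1) := fun m =>
    hrem m T ψ A f M _ hch (by positivity) (hd2 (m + 1)) hle
  have main := hnum T s (fun j => M j + J n' (f j)) (fun n j => W n * ρ' (n + n') (T - j))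
    (fun n j => K n * (b ^ (n' + 1)) ^ ((n + 1) * j) * s) hs0 (by
      intro j hj
      have a1 : M j ≤ b * M (j + 1) := hsup j _ fun x hx => by
        obtain ⟨y, hy, -, h2⟩ := hch.iter hq hq1 hb j 1 (by omega) x hx
        rw [pow_one] at h2
        exact h2.trans (mul_le_mul_of_nonneg_left (hle _ (by omega) y hy) (by positivity))
      have a2 := hJ1 j hj
      have a3 := mul_le_mul_of_nonneg_right hbb1 (hM0 (j + 1) hj)
      have a4 := mul_le_mul_of_nonneg_right hKb1 (J_nonneg n' (f (j + 1)))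
      linarith) (by
      have a1 := hsup T _ hfT
      have a2 : J n' (f T) ≤ (∑ i ∈ range (n' + 1), max (d i) 0) * Real.exp (α * T) := by
        rw [sum_mul]; exact sum_le_sum fun i _ => hd2 i 0 h0
      simp only [hd']
      linarith) (by
      intro n _
      simp only [Nat.sub_self, hρ', rrec, hd', mul_assoc]; exact le_rfl) (by
      intro n _ j hj
      have e : T - j = T - (j + 1) + 1 := by omega
      have e2 : T - (T - (j + 1)) = j + 1 := by omega
      have e3 : ρ' (n + n') (T - j) = 2 * b * q ^ (n + n' + 1) * ρ' (n + n') (T - (j + 1))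
          + K1 (n + n') * M (j + 1) := by
        rw [e]; simp only [hρ', rrec, e2]
      have a0 := (hr (n + n') (T - (j + 1)) (by omega)).1
      have a1 : q ^ (n + n' + 1) ≤ q ^ (n + 1) := pow_le_pow_of_le_one hq.le hq1.le (by omega)
      have a2 : 2 * b * q ^ (n + n' + 1) ≤ 2 * b1 * q ^ (n + 1) := by gcongr
      have a3 := mul_le_mul_of_nonneg_right a2 (mul_nonneg (hW0 n) a0)
      have a4 : W n * K1 (n + n') * M (j + 1) ≤ K n * (M (j + 1) + J n' (f (j + 1))) :=
        mul_le_mul (le_add_of_nonneg_right (hKb n)) (le_add_of_nonneg_right (J_nonneg _ _))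
          (hM0 _ hj) (add_nonneg (hKa n) (hKb n))
      rw [e3]
      nlinarith) (fun n _ j _ => le_rfl) (by
      intro n _ j i hji
      set m := n + n' with hm
      set k := j + i with hk
      set t := q ^ i * R with ht
      have hqi : 0 < q ^ i := by positivity
      have hqi1 : q ^ i ≤ 1 := pow_le_one₀ hq.le hq1.le
      have ht0 : 0 < t := by positivity
      have htR : t ≤ R := by rw [ht]; nlinarith
      obtain ⟨r0, r1⟩ := hr m (T - k) (by omega)
      rw [show T - (T - k) = k by omega] at r1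
      set ρ := ρ' m (T - k) with hρ
      have hp := tay_small hR ht0 htR (one_le_pow₀ hb : 1 ≤ b ^ k) r0 (cover hch hR hb hs k hji) r1
      set Q := (12 * 6 ^ m * b ^ k) ^ m * (b ^ k * s) with hQ
      have hQ0 : 0 ≤ Q := by positivity
      have hρt : 0 ≤ ρ * t ^ (m + 1) := by positivity
      set Y := Q + 2 * (ρ * t ^ (m + 1)) with hY
      have hY0 : 0 ≤ Y := by positivity
      have a1 : M j ≤ b1 ^ i * Y := hsup j _ fun x hx => by
        obtain ⟨y, hy, h1, h2⟩ := hch.iter hq hq1 hb j i hji x hx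
        have b1' : ‖y‖ ≤ t :=
          h1.trans (mul_le_mul_of_nonneg_left (mem_ball_zero_iff.1 hx).le hqi.le)
        have b2 := r1 y hy
        have b3 := hp y b1'
        have b4 : ρ * ‖y‖ ^ (m + 1) ≤ ρ * t ^ (m + 1) := by gcongr
        have b5 := norm_add_le (tay m (f k) y) (f k y - tay m (f k) y)
        rw [add_sub_cancel] at b5
        refine h2.trans (mul_le_mul (by gcongr) (by linarith) (norm_nonneg _) (by positivity))
      have a2 : J n' (f j) ≤ K' ^ i * J n' (f k) :=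
        chain_le (M := fun j => J n' (f j)) hK' hJ1 j i hji
      have a3 : J n' (f k) ≤ (X n - 1) / (q ^ n') ^ i * Y := by
        have b1' : ∀ l ∈ range (n' + 1), ‖iteratedFDeriv ℝ l (f k) 0‖
            ≤ C1 m * (max 1 R⁻¹) ^ n' / (q ^ n') ^ i * Y := by
          intro l hl
          have hl' := Nat.lt_succ_iff.1 (mem_range.1 hl)
          refine (hjet m (f k) t _ ((hsm T ψ A f hch).1 k hji) ht0 htR hp l (by omega)).trans ?_
          have c1 : (q ^ n') ^ i ≤ (q ^ i) ^ l := by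
            rw [← pow_mul, ← pow_mul]
            exact pow_le_pow_of_le_one hq.le hq1.le (by nlinarith)
          have c2 : (R ^ l)⁻¹ ≤ (max 1 R⁻¹) ^ n' := by
            rw [← inv_pow]
            exact (pow_le_pow_left₀ (by positivity) (le_max_right 1 _) l).trans
              (pow_le_pow_right₀ (le_max_left _ _) hl')
          have c3 : (t ^ l)⁻¹ ≤ (max 1 R⁻¹) ^ n' / (q ^ n') ^ i := by
            rw [ht, mul_pow, mul_inv, div_eq_mul_inv, mul_comm]
            exact mul_le_mul c2 (inv_anti₀ (by positivity) c1) (by positivity) (by positivity)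
          have c4 := hC1 m
          calc C1 m * (Q + ρ * t ^ (m + 1)) / t ^ l = C1 m * (t ^ l)⁻¹ * (Q + ρ * t ^ (m + 1)) := by
                rw [div_eq_mul_inv]; ring
            _ ≤ C1 m * ((max 1 R⁻¹) ^ n' / (q ^ n') ^ i) * Y := by
                gcongr; rw [hY]; linarith
            _ = _ := by ring
        refine (sum_le_card_nsmul _ _ _ b1').trans (le_of_eq ?_)
        simp only [card_range, nsmul_eq_mul, hX]
        push_cast; ring
      have a4 : J n' (f j) ≤ b1 ^ i * ((X n - 1) * Y) := by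
        have c1 : K' ^ i ≤ b0 ^ i := pow_le_pow_left₀ (by linarith) (le_max_right _ _) i
        have c2 := hX1 n
        calc J n' (f j) ≤ b0 ^ i * ((X n - 1) / (q ^ n') ^ i * Y) :=
              a2.trans (mul_le_mul c1 a3 (J_nonneg _ _) (by positivity))
          _ = _ := by rw [hb1, div_pow]; ring
      have a5 : X n * Q ≤ K n * (b ^ (n' + 1)) ^ ((n + 1) * k) * s := by
        have c1 : (b ^ k) ^ m * b ^ k ≤ (b ^ (n' + 1)) ^ ((n + 1) * k) := by
          rw [← pow_succ, ← pow_mul, ← pow_mul]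
          refine pow_le_pow_right₀ hb ?_
          rw [← mul_assoc, mul_comm k]
          exact Nat.mul_le_mul_right _ (by rw [hm]; nlinarith)
        have c2 := hX1 n
        calc X n * Q = X n * (12 * 6 ^ m) ^ m * ((b ^ k) ^ m * b ^ k) * s := by
              rw [hQ, mul_pow]; ring
          _ ≤ _ := by
              gcongr
              · exact add_nonneg (hKa n) (hKb n)
              · exact le_add_of_nonneg_left (hKa n)
      have a6 : X n * (2 * (ρ * t ^ (m + 1))) ≤ W n * ρ * t ^ (n + 1) := by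
        have c1 : t ^ n' ≤ (max 1 R) ^ n' :=
          pow_le_pow_left₀ ht0.le (htR.trans (le_max_right _ _)) _
        have c2 := hX1 n
        calc X n * (2 * (ρ * t ^ (m + 1))) = 2 * X n * t ^ n' * ρ * t ^ (n + 1) := by
              rw [hm]; ring
          _ ≤ _ := by simp only [hW]; gcongr
      have a7 : 0 < b1 ^ i := by have := hb.trans hbb1; positivity
      have a8 : X n * Y ≤ K n * (b ^ (n' + 1)) ^ ((n + 1) * k) * s + W n * ρ * t ^ (n + 1) := by
        rw [hY, mul_add]; linarith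
      have a9 := mul_le_mul_of_nonneg_left a8 a7.le
      nlinarith)
  intro i hi
  have := le_J (f 0) hi
  have := hM0 0 (Nat.zero_le _)
  linarith

end Crest.Agent.N221.PS
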