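import Crest.Agent.N221.A1.PDefs

/-! Row 221, A1: the curve lemma `CLS` from the leaves `CPS`, `IntS`. -/

set_option autoImplicit false

open Set Metric Finset Filter
open scoped ContDiff Nat Topology

namespace Crest.Agent.N221.PS

theorem ev_small (X γ ε : ℝ) (hγ : 0 < γ) (hε : 0 < ε) :
    ∀ᶠ T : ℕ in atTop, X * Real.exp (-(γ * T)) < ε := by
  have h1 : Tendsto (fun T : ℕ => γ * (T : ℝ)) atTop atTop :=
    tendsto_natCast_atTop_atTop.const_mul_atTop hγ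
  have h2 : Tendsto (fun T : ℕ => X * Real.exp (-(γ * T))) atTop (𝓝 (X * 0)) :=
    (Real.tendsto_exp_neg_atTop_nhds_zero.comp h1).const_mul X
  rw [mul_zero] at h2
  exact h2.eventually (gt_mem_nhds hε)

theorem ex_bd (u : ℕ → ℝ) (N : ℕ) : ∃ C : ℝ, 1 ≤ C ∧ ∀ k ≤ N, u k ≤ C := by
  refine ⟨1 + ∑ k ∈ range (N + 1), |u k|, ?_, fun k hk => ?_⟩
  · have : 0 ≤ ∑ k ∈ range (N + 1), |u k| := sum_nonneg fun _ _ => abs_nonneg _
    linarith
  · have := single_le_sum (f := fun k => |u k|) (fun _ _ => abs_nonneg _)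
      (mem_range.2 (Nat.lt_succ_of_le hk))
    have := le_abs_self (u k)
    linarith

set_option maxHeartbeats 800000 in
theorem clS (hC : CPS) (hI : IntS) : CLS := by
  intro R a g α β K c d hR ha hg hα hβ
  obtain ⟨m, hm⟩ := exists_nat_ge ((β + g + α + Real.log (a + 1) + 1) / g)
  rw [div_le_iff₀ hg] at hm
  refine ⟨2 ^ m, fun N hN => ?_⟩
  have hN1 : 1 ≤ N := Nat.one_le_two_pow.trans hN
  have hlog : m ≤ Nat.log 2 N := Nat.le_log_of_pow_le (by norm_num) hN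
  obtain ⟨c1, hc1, hc⟩ := ex_bd c N
  obtain ⟨D, hD1, hD⟩ := ex_bd d N
  choose Cn hCn hcp using fun n => hC n c1 hc1
  obtain ⟨C, hC1, hCC⟩ := ex_bd Cn N
  obtain ⟨CI, hCI, hint⟩ := hI N
  obtain ⟨T0, hT0⟩ := eventually_atTop.1 ((ev_small K (2 * g) R (by positivity) hR).and
    ((ev_small (CI * K) g (1 / 2) hg (by norm_num)).and
    ((ev_small (CI * (D * C ^ N)) 1 (1 / 2) one_pos (by norm_num)).and
    (ev_small ((c1 + 1) * (D * C ^ N)) 1 1 one_pos one_pos))))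
  refine ⟨T0, ?_⟩
  intro E F _ _ _ _ _ S0 T Φ x hT hΦ hx hxT hsm hder
  obtain ⟨t1, t2, t3, t4⟩ := hT0 T hT
  set w := Real.exp (-(g * T)) with hw
  have hT' : (0 : ℝ) ≤ T := by positivity
  have hw0 : 0 < w := Real.exp_pos _
  have hw1 : w ≤ 1 := Real.exp_le_one_iff.2 (by have := mul_nonneg hg.le hT'; linarith)
  set H : ℕ → ℝ := fun k => D * (a + 1) ^ k * Real.exp (α * T) with hH
  have hH0 : ∀ k, 0 ≤ H k := fun k => by simp only [hH]; positivity
  have htop : ∀ k ≤ T, H k * C ^ N * w ^ Nat.log 2 N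
      ≤ D * C ^ N * Real.exp (-(1 * T)) * (w * Real.exp (-(β * T))) := by
    intro k hk
    have a1 : (a + 1) ^ k ≤ Real.exp (Real.log (a + 1) * T) := by
      rw [mul_comm, Real.exp_nat_mul, Real.exp_log (by linarith)]
      exact pow_le_pow_right₀ (by linarith) hk
    have a2 : w ^ Nat.log 2 N ≤ Real.exp (-(m * g * T)) := by
      refine (pow_le_pow_of_le_one hw0.le hw1 hlog).trans (le_of_eq ?_)
      rw [hw, ← Real.exp_nat_mul]; ring_nf
    have a3 : Real.exp (Real.log (a + 1) * T) * Real.exp (α * T) * Real.exp (-(m * g * T))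
        ≤ Real.exp (-(1 * T)) * (w * Real.exp (-(β * T))) := by
      rw [hw, ← Real.exp_add, ← Real.exp_add, ← Real.exp_add, ← Real.exp_add]
      apply Real.exp_le_exp.2
      have := mul_le_mul_of_nonneg_right hm hT'
      linarith
    calc H k * C ^ N * w ^ Nat.log 2 N
        = D * C ^ N * ((a + 1) ^ k * Real.exp (α * T) * w ^ Nat.log 2 N) := by simp only [hH]; ring
      _ ≤ D * C ^ N * (Real.exp (Real.log (a + 1) * T) * Real.exp (α * T)
          * Real.exp (-(m * g * T))) := by gcongr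
      _ ≤ D * C ^ N * (Real.exp (-(1 * T)) * (w * Real.exp (-(β * T)))) := by gcongr
      _ = _ := by ring
  have hβ1 : Real.exp (-(β * T)) ≤ 1 :=
    Real.exp_le_one_iff.2 (by have := mul_nonneg hβ hT'; linarith)
  have hball : ∀ S, S0 ≤ S → S ≤ T → ∀ τ ∈ Icc (0 : ℝ) 1, x S τ ∈ ball (0 : E) R :=
    fun S h1 h2 τ hτ => mem_ball_zero_iff.2 ((hsm S h1 h2 τ hτ).trans_lt t1)
  have hwb : ∀ S k, S0 ≤ S → S + k = T → (∀ τ ∈ Icc (0 : ℝ) 1, ContDiffAt ℝ ∞ (x S) τ) →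
      (∀ τ ∈ Icc (0 : ℝ) 1, ∀ j, 1 ≤ j → j ≤ N →
        ‖iteratedDeriv j (x S) τ‖ ≤ H k * C ^ j * w ^ Nat.log 2 j) →
      ∀ τ ∈ Icc (0 : ℝ) 1, ∀ j ≤ N, ‖iteratedDeriv j (x S) τ‖ ≤ w := by
    intro S k h1 h2 h3 h4 τ hτ j hj
    refine (hint E (x S) _ _ h3 (hsm S h1 (by omega)) (fun t ht => h4 t ht N hN1 le_rfl)
      j hj τ hτ).trans ?_
    have a1 := htop k (by omega)
    have a2 : Real.exp (-(2 * g * T)) = Real.exp (-(g * T)) * w := by
      rw [hw, ← Real.exp_add]; ring_nf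
    have a3 : D * C ^ N * Real.exp (-(1 * T)) * (w * Real.exp (-(β * T)))
        ≤ D * C ^ N * Real.exp (-(1 * T)) * (w * 1) := by gcongr
    have a4 := mul_le_mul_of_nonneg_left (a1.trans a3) (show 0 ≤ CI by linarith)
    have a5 := mul_le_mul_of_nonneg_right t2.le hw0.le
    have a6 := mul_le_mul_of_nonneg_right t3.le hw0.le
    rw [a2]
    linarith
  have hcomp : ∀ (F : Type) [NormedAddCommGroup F] [NormedSpace ℝ F] (y : ℝ → E) (G : E → F)
      (τ h a' : ℝ), 0 ≤ h → ContDiffAt ℝ ∞ y τ → y τ ∈ ball (0 : E) R →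
      ContDiffOn ℝ ∞ G (ball 0 R) → ‖fderiv ℝ G (y τ)‖ ≤ a' →
      (∀ k, 1 ≤ k → ‖iteratedFDeriv ℝ k G (y τ)‖ ≤ c k) →
      (∀ j ≤ N, ‖iteratedDeriv j y τ‖ ≤ w) →
      (∀ j, 1 ≤ j → j ≤ N → ‖iteratedDeriv j y τ‖ ≤ h * C ^ j * w ^ Nat.log 2 j) →
      ∀ j, 1 ≤ j → j ≤ N →
        ‖iteratedDeriv j (G ∘ y) τ‖ ≤ (a' + 1) * h * C ^ j * w ^ Nat.log 2 j := by
    intro F _ _ y G τ h a' h0 hy hb hG hG1 hGk h1 h2 j hj1 hj
    obtain ⟨n, rfl⟩ : ∃ n, j = n + 1 := ⟨j - 1, by omega⟩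
    have hp : Prof y τ w (h * C ^ n) n := fun i hi1 hi => ⟨h1 i (by omega),
      (h2 i hi1 (by omega)).trans (by gcongr)⟩
    have a1 := (hcp n E F y G τ w (h * C ^ n) hy (hG.contDiffAt (isOpen_ball.mem_nhds hb)) hw0.le
      hw1 (by positivity) (fun k hk1 hk => (hGk k hk1).trans (hc k (by omega))) hp).1
    have a2 : ‖fderiv ℝ G (y τ) (iteratedDeriv (n + 1) y τ)‖
        ≤ a' * (h * C ^ (n + 1) * w ^ Nat.log 2 (n + 1)) :=
      ((fderiv ℝ G (y τ)).le_opNorm _).trans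
        (mul_le_mul hG1 (h2 _ hj1 hj) (norm_nonneg _) ((norm_nonneg _).trans hG1))
    have a3 : Cn n * (h * C ^ n * w ^ Nat.log 2 (n + 1))
        ≤ C * (h * C ^ n * w ^ Nat.log 2 (n + 1)) :=
      mul_le_mul_of_nonneg_right (hCC n (by omega)) (by positivity)
    have a4 := norm_add_le (fderiv ℝ G (y τ) (iteratedDeriv (n + 1) y τ))
      (iteratedDeriv (n + 1) (G ∘ y) τ - fderiv ℝ G (y τ) (iteratedDeriv (n + 1) y τ))
    rw [add_sub_cancel] at a4
    rw [pow_succ C n] at a2 ⊢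
    linarith
  have hind : ∀ k S, S0 ≤ S → S + k = T → (∀ τ ∈ Icc (0 : ℝ) 1, ContDiffAt ℝ ∞ (x S) τ) ∧
      ∀ τ ∈ Icc (0 : ℝ) 1, ∀ j, 1 ≤ j → j ≤ N →
        ‖iteratedDeriv j (x S) τ‖ ≤ H k * C ^ j * w ^ Nat.log 2 j := by
    intro k
    induction k with
    | zero =>
      intro S _ h2
      obtain rfl : S = T := by omega
      refine ⟨hxT, fun τ hτ j hj1 hj => (hder j hj1 τ hτ).trans ?_⟩
      refine mul_le_mul_of_nonneg_right ?_ (by positivity)
      have a1 : d j * Real.exp (α * S) ≤ H 0 := by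
        simp only [hH, pow_zero, mul_one]
        exact mul_le_mul_of_nonneg_right (hD j hj) (Real.exp_pos _).le
      exact a1.trans (le_mul_of_one_le_right (hH0 0) (one_le_pow₀ hC1))
    | succ k ih =>
      intro S h1 h2
      obtain ⟨i1, i2⟩ := ih (S + 1) (by omega) (by omega)
      have i3 := hwb (S + 1) k (by omega) (by omega) i1 i2
      obtain ⟨p1, p2⟩ := hΦ S h1 (by omega)
      refine ⟨fun τ hτ => ?_, fun τ hτ j hj1 hj => ?_⟩
      · have hb := hball (S + 1) (by omega) (by omega) τ hτ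
        exact ((p1.contDiffAt (isOpen_ball.mem_nhds hb)).comp τ (i1 τ hτ)).congr_of_eventuallyEq
          (hx S h1 (by omega) τ hτ)
      · have hb := hball (S + 1) (by omega) (by omega) τ hτ
        rw [(hx S h1 (by omega) τ hτ).iteratedDeriv_eq]
        refine (hcomp E _ _ τ (H k) a (hH0 k) (i1 τ hτ) hb p1 (p2 _ hb).1 (p2 _ hb).2 (i3 τ hτ)
          (i2 τ hτ) j hj1 hj).trans (le_of_eq ?_)
        simp only [hH]; ring
  intro S h1 h2 τ hτ
  obtain ⟨k, hk⟩ := Nat.exists_eq_add_of_le h2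
  obtain ⟨i1, i2⟩ := hind k S h1 hk.symm
  have i3 := hwb S k h1 hk.symm i1 i2
  refine ⟨i1 τ hτ, fun j _ hj => i3 τ hτ j hj, fun G hG hGk => ?_⟩
  have hb := hball S h1 h2 τ hτ
  have a0 : ‖fderiv ℝ G (x S τ)‖ ≤ c1 := by
    rw [← norm_iteratedFDeriv_one]; exact (hGk _ hb 1 le_rfl).trans (hc 1 hN1)
  refine (hcomp F _ G τ (H k) c1 (hH0 k) (i1 τ hτ) hb hG a0 (hGk _ hb) (i3 τ hτ)
    (i2 τ hτ) N hN1 le_rfl).trans ?_
  have a1 := htop k (by omega)
  have a3 : D * C ^ N * Real.exp (-(1 * T)) * (w * Real.exp (-(β * T)))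
      ≤ D * C ^ N * Real.exp (-(1 * T)) * (1 * Real.exp (-(β * T))) := by gcongr
  have a4 := mul_le_mul_of_nonneg_left (a1.trans a3) (show 0 ≤ c1 + 1 by linarith)
  have a5 := mul_le_mul_of_nonneg_right t4.le (Real.exp_pos (-(β * T))).le
  linarith

end Crest.Agent.N221.PS
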