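import Crest.Agent.N221.A1.PDefs

/-! Row 221, step A1: one step of a chain of contractions. -/

set_option autoImplicit false

open Set Metric Finset
open scoped ContDiff Nat Topology

namespace Crest.Agent.N221.PS

namespace Stp

variable {E V : Type} [NormedAddCommGroup E] [NormedSpace ℝ E] [FiniteDimensional ℝ E]
  [NormedAddCommGroup V] [NormedSpace ℝ V] [FiniteDimensional ℝ V]

/-- derivatives of `A (P ∘ ψ)` -/
theorem der (hT : TayS) (hN : NeS) {R : ℝ} (hR : 0 < R) (c : ℕ → ℝ) (n : ℕ) : ∃ K : ℝ, 0 < K ∧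
    ∀ (ψ : E → E) (A : E → V →L[ℝ] V) (f : E → V) (p : ℝ), ContDiffOn ℝ ∞ ψ (ball 0 R) →
      ContDiffOn ℝ ∞ A (ball 0 R) → MapsTo ψ (ball 0 R) (ball 0 R) →
      (∀ k, ∀ x ∈ ball (0 : E) R, ‖iteratedFDeriv ℝ k ψ x‖ ≤ c k) →
      (∀ k, ∀ x ∈ ball (0 : E) R, ‖iteratedFDeriv ℝ k A x‖ ≤ c k) →
      (∀ x : E, ‖x‖ ≤ R → ‖tay n f x‖ ≤ p) → ∀ x ∈ ball (0 : E) R,
        ‖iteratedFDeriv ℝ (n + 1) (fun x => A x (tay n f (ψ x))) x‖ ≤ K * p := by
  have := FiniteDimensional.complete ℝ V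
  obtain ⟨C, hC, h⟩ := hN E V n (n + 1) R hR
  obtain ⟨D, D1, D2⟩ : ∃ D : ℝ, 1 ≤ D ∧ ∀ i ≤ n + 1, c i ≤ D :=
    ⟨1 + ∑ i ∈ range (n + 2), |c i|, le_add_of_nonneg_right (by positivity), fun i hi =>
      (le_abs_self _).trans ((single_le_sum (f := fun i => |c i|) (fun _ _ => abs_nonneg _)
        (mem_range.2 (Nat.lt_succ_of_le hi))).trans (by linarith))⟩
  refine ⟨∑ i ∈ range (n + 1 + 1), (n + 1).choose i * D * ((n + 1 - i)! * C * D ^ (n + 1 - i)),
    sum_pos (fun i hi => by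
      have := Nat.choose_pos (Nat.lt_succ_iff.1 (mem_range.1 hi))
      positivity) (by simp), fun ψ A f p h1 h2 h3 h4 h5 h6 x hx => ?_⟩
  have hP := (hT E V n).2.2.2.2 f
  have hu := (isOpen_ball (x := (0 : E)) (ε := R)).uniqueDiffOn (𝕜 := ℝ)
  rw [← iteratedFDerivWithin_of_isOpen _ isOpen_ball hx, sum_mul]
  refine (norm_iteratedFDerivWithin_clm_apply h2 (hP.comp_contDiffOn h1) hu hx
    (by exact_mod_cast le_top)).trans (sum_le_sum fun i hi => ?_)
  have hi' := Nat.lt_succ_iff.1 (mem_range.1 hi)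
  have a1 := norm_iteratedFDerivWithin_comp_le (n := n + 1 - i) (C := C * p) (D := D)
    (hP.contDiffOn (s := univ)) h1 (WithTop.coe_le_coe.2 le_top) uniqueDiffOn_univ hu
    (mapsTo_univ _ _) hx
    (fun k hk => by
      rw [iteratedFDerivWithin_univ]
      exact h f p h6 k (by omega) _ (mem_ball_zero_iff.1 (h3 hx)).le)
    fun k k1 hk => by
      rw [iteratedFDerivWithin_of_isOpen _ isOpen_ball hx]
      exact (h4 k x hx).trans ((D2 k (by omega)).trans (le_self_pow₀ D1 (by omega)))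
  rw [iteratedFDerivWithin_of_isOpen i isOpen_ball hx]
  calc _ ≤ (n + 1).choose i * D * ((n + 1 - i)! * (C * p) * D ^ (n + 1 - i)) := by
        gcongr
        exact (h5 i x hx).trans (D2 i hi')
    _ = _ := by ring

variable {R q b : ℝ} {c : ℕ → ℝ} {T j n : ℕ} {ψ : ℕ → E → E} {A : ℕ → E → V →L[ℝ] V}
  {f : ℕ → E → V}

omit [FiniteDimensional ℝ E] [FiniteDimensional ℝ V]

theorem maps (h : Chain R q b c T ψ A f) (hq : q < 1) (hj : j < T) {r : ℝ} (hr : r ≤ R) :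
    MapsTo (ψ j) (ball 0 r) (ball 0 r) := fun x hx =>
  mem_ball_zero_iff.2 (((h.con j hj x (ball_subset_ball hr hx)).trans
    (mul_le_of_le_one_left (norm_nonneg _) hq.le)).trans_lt (mem_ball_zero_iff.1 hx))

theorem smooth (h : Chain R q b c T ψ A f) (hq : q < 1) (hj : j ≤ T) :
    ContDiffOn ℝ ∞ (f j) (ball 0 R) := by
  induction hj using Nat.decreasingInduction with
  | self => exact h.smf
  | of_succ k hk ih =>
    exact ((h.sA k hk).clm_apply (ih.comp (h.sψ k hk) (maps h hq hk le_rfl))).congr (h.rel k hk)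

theorem near (h : Chain R q b c T ψ A f) (hq : q < 1) (hj : j < T) {r ρ : ℝ} (hr : r ≤ R)
    (hρ : 0 ≤ ρ) (h1 : ∀ x ∈ ball (0 : E) r, ‖f (j + 1) x - tay n (f (j + 1)) x‖ ≤ ρ * ‖x‖ ^ (n + 1)) :
    ∀ x ∈ ball (0 : E) r, ‖f j x - A j x (tay n (f (j + 1)) (ψ j x))‖ ≤
      b * q ^ (n + 1) * ρ * ‖x‖ ^ (n + 1) := fun x hx => by
  have hx' := ball_subset_ball hr hx
  have a1 := h.nA j hj x hx'
  have a2 := h.con j hj x hx'
  have a3 := (norm_nonneg _).trans a1
  rw [h.rel j hj x hx', ← map_sub]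
  calc _ ≤ b * (ρ * ‖ψ j x‖ ^ (n + 1)) := (A j x).le_of_opNorm_le_of_le a1 (h1 _ (maps h hq hj hr hx))
    _ ≤ b * (ρ * (q * ‖x‖) ^ (n + 1)) := by gcongr
    _ = _ := by ring

end Stp

open Stp

theorem stepS (hT : TayS) (hN : NeS) : StepS := by
  intro E V _ _ _ _ _ _ R q b c n hR q0 q1 hb
  have := FiniteDimensional.complete ℝ V
  have := FiniteDimensional.proper ℝ E
  obtain ⟨K, hK, hd⟩ := der (E := E) (V := V) hT hN hR c n
  obtain ⟨t1, t2, t3, -, t5⟩ := hT E V n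
  obtain ⟨r, r0, r1, r2⟩ : ∃ r : ℝ, 0 < r ∧ r < R ∧ (6 * b) ^ n * b * K * (6 * R) ^ n * r ≤ 1 / 2 :=
    ⟨min (R / 2) (1 / 2 / ((6 * b) ^ n * b * K * (6 * R) ^ n)), by positivity,
      (min_le_left _ _).trans_lt (by linarith),
      (le_div_iff₀' (by positivity)).1 (min_le_right _ _)⟩
  refine ⟨K, r, hK, r0, r1, fun T ψ A f h => ⟨fun j => smooth h q1, fun j hj => ?_⟩⟩
  have hg : ContDiffOn ℝ ∞ (fun x => A j x (tay n (f (j + 1)) (ψ j x))) (ball 0 R) :=
    (h.sA j hj).clm_apply ((t5 _).comp_contDiffOn (h.sψ j hj))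
  have he : tay n (f j) = tay n fun x => A j x (tay n (f (j + 1)) (ψ j x)) := by
    have hs : closedBall (0 : E) (R / 2) ⊆ ball 0 R := closedBall_subset_ball (by linarith)
    have hs' := ball_subset_closedBall.trans hs
    have h1 := smooth h q1 (j := j + 1) hj
    obtain ⟨D, hD⟩ := (isCompact_closedBall (0 : E) (R / 2)).exists_bound_of_continuousOn
      (f := iteratedFDeriv ℝ (n + 1) (f (j + 1))) (((h1.continuousOn_iteratedFDerivWithin
        (m := n + 1) (by exact_mod_cast le_top) isOpen_ball.uniqueDiffOn).congr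
          (iteratedFDerivWithin_of_isOpen _ isOpen_ball).symm).mono hs)
    exact t3 _ _ (R / 2) _ (by linarith) ((smooth h q1 hj.le).mono hs') (hg.mono hs')
      (near h q1 hj (by linarith) ((norm_nonneg _).trans (hD 0 (mem_closedBall_self (by linarith))))
        (t1 _ _ D (h1.mono hs') fun x hx => hD x (ball_subset_closedBall hx)))
  have hr := fun p hp => t1 _ R (K * p) hg (hd _ _ (f (j + 1)) p (h.sψ j hj) (h.sA j hj)
    (maps h q1 hj le_rfl) (h.dψ j hj) (h.dA j hj) hp)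
  rw [he]
  refine ⟨fun ρ p hρ h1 h2 x hx => ?_, fun p hp => ?_⟩
  · rw [add_mul]
    exact (norm_sub_le_norm_sub_add_norm_sub _ _ _).trans
      (add_le_add (near h q1 hj le_rfl hρ h1 x hx) (hr p h2 x hx))
  obtain ⟨y, y1, y2⟩ := (isCompact_closedBall (0 : E) r).exists_isMaxOn
    ⟨0, mem_closedBall_self r0.le⟩ (t5 (f (j + 1))).continuous.norm.continuousOn
  have y3 : ∀ x : E, ‖x‖ ≤ r → ‖tay n (f (j + 1)) x‖ ≤ ‖tay n (f (j + 1)) y‖ := fun x hx =>
    y2 (mem_closedBall_zero_iff.2 hx)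
  have b0 : 0 < b := by linarith
  have h1 := hr _ (t2 _ r R _ r0 r1.le y3)
  have h2 := t2 (f (j + 1)) (r / b) r
    (b * (p + K * ((6 * R / r) ^ n * ‖tay n (f (j + 1)) y‖) * r ^ (n + 1))) (by positivity)
    (div_le_self r0.le hb) (fun z hz => by
      obtain ⟨x, x1, rfl⟩ := h.sur j hj z (hz.trans_lt (by gcongr))
      have x2 : ‖x‖ ≤ r := x1.trans ((le_div_iff₀' b0).1 hz)
      have x3 := mem_ball_zero_iff.2 (x2.trans_lt r1)
      refine (h.iA j hj x x3 _).trans (mul_le_mul_of_nonneg_left ((norm_le_norm_add_norm_sub' _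
        _).trans (add_le_add (hp x x2) ((h1 x x3).trans ?_))) b0.le)
      gcongr) y (mem_closedBall_zero_iff.1 y1)
  have e : (6 * r / (r / b)) ^ n * (b * (p + K * ((6 * R / r) ^ n * ‖tay n (f (j + 1)) y‖) *
      r ^ (n + 1))) = b * (6 * b) ^ n * p +
        (6 * b) ^ n * b * K * (6 * R) ^ n * r * ‖tay n (f (j + 1)) y‖ := by
    rw [show 6 * r / (r / b) = 6 * b by field_simp, div_pow]
    field_simp
    ring
  rw [e] at h2
  intro x hx
  linarith [y3 x hx, mul_le_mul_of_nonneg_right r2 (norm_nonneg (tay n (f (j + 1)) y))]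

end Crest.Agent.N221.PS
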