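import Crest.Agent.N221.A1.PMain
import Crest.Agent.N221.A1.PCl
import Crest.Agent.N221.A1.PRem
import Crest.Agent.N221.A1.PTay
import Crest.Agent.N221.A1.PNe
import Crest.Agent.N221.A1.PStep
import Crest.Agent.N221.A1.CP
import Crest.Agent.N221.A1.Int

/-! Row 221, A1: the real variable tools, unconditional. -/

namespace Crest.Agent.N221.PS

theorem tay_ : TayS := tayS remS
theorem ne_ : NeS := neS remS
theorem step_ : StepS := stepS tay_ ne_
/-- subexponential propagation -/
theorem ps : PSS := psS tay_ step_
/-- curve lemma -/
theorem cl : CLS := clS cpS intS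

end Crest.Agent.N221.PS
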