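import Crest.Agent.N221.A1.PNum

/-! Row 221, A1: subexponential propagation `PSS` from the leaves `TayS`, `StepS`. -/

set_option autoImplicit false

open Set Metric Finset
open scoped ContDiff Nat Topology

namespace Crest.Agent.N221.PS

/-- remainder constants, by recursion from the end of the chain -/
noncomputable def rrec (a D : ℝ) (m : ℕ → ℝ) : ℕ → ℝ
  | 0 => D
  | k + 1 => a * rrec a D m k + m k

section
variable {E V : Type} [NormedAddCommGroup E] [NormedSpace ℝ E]
  [NormedAddCommGroup V] [NormedSpace ℝ V] {R q b : ℝ} {c : ℕ → ℝ} {T : ℕ} {ψ : ℕ → E → E}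
  {A : ℕ → E → V →L[ℝ] V} {f : ℕ → E → V}

theorem Chain.iter (h : Chain R q b c T ψ A f) (hq : 0 < q) (hq1 : q < 1) (hb : 1 ≤ b)
    (j i : ℕ) (hj : j + i ≤ T) (x : E) (hx : x ∈ ball (0 : E) R) :
    ∃ y ∈ ball (0 : E) R, ‖y‖ ≤ q ^ i * ‖x‖ ∧ ‖f j x‖ ≤ b ^ i * ‖f (j + i) y‖ := by
  induction i with
  | zero => exact ⟨x, hx, by simp, by simp⟩
  | succ i ih =>
    obtain ⟨y, hy, h1, h2⟩ := ih (by omega)
    have hl : j + i < T := by omega
    have h3 := h.con _ hl y hy
    have hy' := mem_ball_zero_iff.1 hy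
    refine ⟨ψ (j + i) y, ?_, ?_, ?_⟩
    · rw [mem_ball_zero_iff]; nlinarith [norm_nonneg y]
    · calc ‖ψ (j + i) y‖ ≤ q * ‖y‖ := h3
        _ ≤ q * (q ^ i * ‖x‖) := mul_le_mul_of_nonneg_left h1 hq.le
        _ = q ^ (i + 1) * ‖x‖ := by ring
    · have h4 : ‖f (j + i) y‖ ≤ b * ‖f (j + i + 1) (ψ (j + i) y)‖ := by
        rw [h.rel _ hl y hy]
        exact ((A (j + i) y).le_opNorm _).trans
          (mul_le_mul_of_nonneg_right (h.nA _ hl y hy) (norm_nonneg _))
      calc ‖f j x‖ ≤ b ^ i * ‖f (j + i) y‖ := h2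
        _ ≤ b ^ i * (b * ‖f (j + i + 1) (ψ (j + i) y)‖) :=
          mul_le_mul_of_nonneg_left h4 (by positivity)
        _ = b ^ (i + 1) * ‖f (j + (i + 1)) (ψ (j + i) y)‖ := by rw [← add_assoc]; ring

end

set_option maxHeartbeats 800000 in
theorem psS (hT : TayS) (hS : StepS) : PSS := by
  intro E V _ _ _ _ _ _ R q b α δ c d hR hq hq1 hb hα hδ
  haveI : CompleteSpace V := FiniteDimensional.complete ℝ V
  choose K1 r0 hK1 hr0 hr0R hst using fun n => hS E V R q b c n hR hq hq1 hb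
  have hr : ∀ n, ∃ r : ℝ, 0 < r ∧ r < R ∧ K1 n * (6 * R) ^ n * r ≤ b * q ^ (n + 1) := by
    intro n
    have hp : 0 < K1 n * (6 * R) ^ n := by have := hK1 n; positivity
    refine ⟨min (R / 2) (b * q ^ (n + 1) / (K1 n * (6 * R) ^ n)), by positivity,
      (min_le_left _ _).trans_lt (by linarith), ?_⟩
    have := min_le_right (R / 2) (b * q ^ (n + 1) / (K1 n * (6 * R) ^ n))
    rw [le_div_iff₀ hp] at this
    linarith
  choose r hr hrR hrK using hr
  set K : ℕ → ℝ := fun n =>
    K1 n * (6 * R / r n) ^ n + (6 * R / r0 n) ^ n * ((n + 1) * (max 1 R) ^ n) with hK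
  have hKa : ∀ n, 0 ≤ K1 n * (6 * R / r n) ^ n := fun n => by
    have := hK1 n; have := hr n; positivity
  have hKb : ∀ n, 0 ≤ (6 * R / r0 n) ^ n * (((n : ℝ) + 1) * (max 1 R) ^ n) := fun n => by
    have := hr0 n; positivity
  have hK0 : ∀ n, 0 ≤ K n := fun n => add_nonneg (hKa n) (hKb n)
  obtain ⟨n0, C, hC, hnum⟩ := numS q b (6 * b) R α δ (fun k => max (d k) 0) K hq hq1 hb
    (by linarith) hR hα hδ hK0 (fun k => le_max_right _ _)
  refine ⟨n0, C, hC, ?_⟩
  intro T ψ A f η hch hd hη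
  have hη0 : 0 ≤ η := (norm_nonneg _).trans (hη 0 (Nat.zero_le _))
  have hE : 0 < Real.exp (α * T) := Real.exp_pos _
  have hd' : ∀ k, ∀ x ∈ ball (0 : E) R,
      ‖iteratedFDeriv ℝ k (f T) x‖ ≤ max (d k) 0 * Real.exp (α * T) := fun k x hx =>
    (hd k x hx).trans (mul_le_mul_of_nonneg_right (le_max_left _ _) hE.le)
  have hfT : ∀ x ∈ ball (0 : E) R, ‖f T x‖ ≤ max (d 0) 0 * Real.exp (α * T) := fun x hx => by
    simpa using hd' 0 x hx
  set M : ℕ → ℝ := fun j => sSup ((fun x => ‖f j x‖) '' ball 0 R) with hM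
  have hle : ∀ j ≤ T, ∀ x ∈ ball (0 : E) R, ‖f j x‖ ≤ M j := by
    intro j hj x hx
    refine le_csSup ⟨b ^ (T - j) * (max (d 0) 0 * Real.exp (α * T)), ?_⟩ ⟨x, hx, rfl⟩
    rintro _ ⟨x, hx, rfl⟩
    obtain ⟨y, hy, -, h2⟩ := hch.iter hq hq1 hb j (T - j) (by omega) x hx
    rw [show j + (T - j) = T by omega] at h2
    exact h2.trans (mul_le_mul_of_nonneg_left (hfT y hy) (by positivity))
  have hsup : ∀ j (m : ℝ), (∀ x ∈ ball (0 : E) R, ‖f j x‖ ≤ m) → M j ≤ m := by
    intro j m h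
    refine csSup_le ⟨_, 0, mem_ball_self hR, rfl⟩ ?_
    rintro _ ⟨x, hx, rfl⟩
    exact h x hx
  have hM0 : ∀ j ≤ T, 0 ≤ M j := fun j hj => (norm_nonneg _).trans (hle j hj 0 (mem_ball_self hR))
  set ρ' : ℕ → ℕ → ℝ := fun n => rrec (2 * b * q ^ (n + 1)) (max (d (n + 1)) 0 * Real.exp (α * T))
    (fun k => K n * M (T - k)) with hρ'
  have hrem : ∀ n k, k ≤ T → 0 ≤ ρ' n k ∧ ∀ x ∈ ball (0 : E) R,
      ‖f (T - k) x - tay n (f (T - k)) x‖ ≤ ρ' n k * ‖x‖ ^ (n + 1) := by
    intro n k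
    induction k with
    | zero =>
      intro _
      refine ⟨by simp only [hρ', rrec]; positivity, ?_⟩
      simp only [hρ', rrec, Nat.sub_zero]
      exact (hT E V n).1 (f T) R _ hch.smf (hd' (n + 1))
    | succ k ih =>
      intro hk
      obtain ⟨h0, h1⟩ := ih (by omega)
      have hMk := hM0 (T - k) (by omega)
      have e : ρ' n (k + 1) = 2 * b * q ^ (n + 1) * ρ' n k + K n * M (T - k) := by
        simp only [hρ', rrec]
      refine ⟨by rw [e]; have := hK0 n; positivity, ?_⟩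
      have e2 : T - k = T - (k + 1) + 1 := by omega
      have hp : ∀ x : E, ‖x‖ ≤ R →
          ‖tay n (f (T - k)) x‖ ≤ (6 * R / r n) ^ n * (M (T - k) + ρ' n k * r n ^ (n + 1)) := by
        refine (hT E V n).2.1 _ (r n) R _ (hr n) (hrR n).le ?_
        intro x hx
        have hx' : x ∈ ball (0 : E) R := mem_ball_zero_iff.2 (hx.trans_lt (hrR n))
        have a1 := h1 x hx'
        have a2 := hle (T - k) (by omega) x hx'
        have a3 : ρ' n k * ‖x‖ ^ (n + 1) ≤ ρ' n k * r n ^ (n + 1) := by gcongr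
        have a4 := norm_sub_le (f (T - k) x) (f (T - k) x - tay n (f (T - k)) x)
        rw [sub_sub_cancel] at a4
        linarith
      intro x hx
      have h2 := ((hst n T ψ A f hch).2 (T - (k + 1)) (by omega)).1 (ρ' n k) _ h0
        (by rw [← e2]; exact h1) (by rw [← e2]; exact hp) x hx
      refine h2.trans (mul_le_mul_of_nonneg_right ?_ (by positivity))
      rw [e]
      have a1 : K1 n * ((6 * R / r n) ^ n * (M (T - k) + ρ' n k * r n ^ (n + 1)))
          = K1 n * (6 * R / r n) ^ n * M (T - k) + K1 n * (6 * R) ^ n * r n * ρ' n k := by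
        have := (hr n).ne'
        rw [div_pow, pow_succ]; field_simp
      have a2 := mul_le_mul_of_nonneg_right (hrK n) h0
      have a3 : K1 n * (6 * R / r n) ^ n * M (T - k) ≤ K n * M (T - k) :=
        mul_le_mul_of_nonneg_right (le_add_of_nonneg_right (hKb n)) hMk
      linarith
  have hpol : ∀ n ≤ n0, ∀ j ≤ T, ∀ x : E, ‖x‖ ≤ R →
      ‖tay n (f j) x‖ ≤ K n * (6 * b) ^ ((n + 1) * j) * η := by
    intro n hn
    have h1 : ∀ j ≤ T, ∀ x : E, ‖x‖ ≤ r0 n →
        ‖tay n (f j) x‖ ≤ (6 * b) ^ ((n + 1) * j) * ((n + 1) * (max 1 R) ^ n * η) := by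
      intro j
      induction j with
      | zero =>
        intro _ x hx
        simp only [mul_zero, pow_zero, one_mul]
        exact (hT E V n).2.2.2.1 _ _ _ (le_max_left _ _) (fun i hi => hη i (hi.trans hn)) x
          (hx.trans ((hr0R n).le.trans (le_max_right _ _)))
      | succ j ih =>
        intro hj x hx
        refine (((hst n T ψ A f hch).2 j (by omega)).2 _ (ih (by omega)) x hx).trans ?_
        rw [mul_add (n + 1) j 1, mul_one, pow_add,
          mul_comm ((6 * b) ^ ((n + 1) * j)) ((6 * b) ^ (n + 1)), mul_assoc ((6 * b) ^ (n + 1))]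
        refine mul_le_mul_of_nonneg_right ?_ (by positivity)
        rw [pow_succ]
        have : 0 ≤ (6 * b) ^ n := by positivity
        nlinarith
    intro j hj x hx
    refine ((hT E V n).2.1 _ (r0 n) R _ (hr0 n) (hr0R n).le (h1 j hj) x hx).trans ?_
    have a1 : (6 * R / r0 n) ^ n * ((n + 1) * (max 1 R) ^ n) ≤ K n := le_add_of_nonneg_left (hKa n)
    have a2 : 0 ≤ (6 * b) ^ ((n + 1) * j) * η := by positivity
    have a3 := mul_le_mul_of_nonneg_right a1 a2
    linarith
  have main := hnum T η M (fun n j => ρ' n (T - j)) (fun n j => K n * (6 * b) ^ ((n + 1) * j) * η)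
    hη0 (by
      intro j hj
      refine hsup j _ fun x hx => ?_
      obtain ⟨y, hy, -, h2⟩ := hch.iter hq hq1 hb j 1 (by omega) x hx
      rw [pow_one] at h2
      exact h2.trans (mul_le_mul_of_nonneg_left (hle _ (by omega) y hy) (by positivity)))
    (hsup T _ hfT) (by intro n _; simp only [Nat.sub_self, hρ', rrec]; exact le_rfl) (by
      intro n _ j hj
      have e : T - j = T - (j + 1) + 1 := by omega
      have e2 : T - (T - (j + 1)) = j + 1 := by omega
      simp only [e, hρ', rrec, e2]; exact le_rfl) (fun n _ j _ => le_rfl) (by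
      intro n hn j i hji
      refine hsup j _ fun x hx => ?_
      obtain ⟨y, hy, h1, h2⟩ := hch.iter hq hq1 hb j i hji x hx
      refine h2.trans (mul_le_mul_of_nonneg_left ?_ (by positivity))
      obtain ⟨h0, h3⟩ := hrem n (T - (j + i)) (by omega)
      rw [show T - (T - (j + i)) = j + i by omega] at h3
      have a1 := h3 y hy
      have a2 := hpol n hn (j + i) hji y (mem_ball_zero_iff.1 hy).le
      have a3 : ‖y‖ ≤ q ^ i * R :=
        h1.trans (mul_le_mul_of_nonneg_left (mem_ball_zero_iff.1 hx).le (by positivity))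
      have a4 : ρ' n (T - (j + i)) * ‖y‖ ^ (n + 1) ≤ ρ' n (T - (j + i)) * (q ^ i * R) ^ (n + 1) := by
        gcongr
      have a5 := norm_add_le (tay n (f (j + i)) y) (f (j + i) y - tay n (f (j + i)) y)
      rw [add_sub_cancel] at a5
      linarith)
  intro x hx
  exact (hle 0 (Nat.zero_le _) x hx).trans main

end Crest.Agent.N221.PS
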