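import Crest.Agent.N221.A1.PDefs

/-! Row 221, A1: the numerical core `NumS` of subexponential propagation. -/

set_option autoImplicit false

open Finset

namespace Crest.Agent.N221.PS

theorem abel_ex (z a : ℕ → ℝ) (L : ℕ) (hL : 0 < L) (h : ∀ l < L, z (l + 1) + a l ≤ z l)
    (h0 : 0 ≤ z L) : ∃ l < L, a l ≤ z 0 / L := by
  by_contra hc
  push Not at hc
  have key : ∀ l ≤ L, 0 < l → z l + l * (z 0 / L) < z 0 := by
    intro l
    induction l with
    | zero => intro _ h; exact absurd h (lt_irrefl _)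
    | succ l ih =>
      intro hl _
      have h1 := h l (by omega)
      have h2 := hc l (by omega)
      rcases Nat.eq_zero_or_pos l with h3 | h3
      · subst h3; push_cast; simp only [zero_add, one_mul] at h1 ⊢; linarith
      · have := ih (by omega) h3
        push_cast; linarith
  have h1 := key L le_rfl hL
  have h2 : (L : ℝ) * (z 0 / L) = z 0 := by
    have : (L : ℝ) ≠ 0 := by positivity
    field_simp
  linarith

theorem chain_le {b : ℝ} (hb : 1 ≤ b) {T : ℕ} {M : ℕ → ℝ} (h : ∀ j < T, M j ≤ b * M (j + 1))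
    (j i : ℕ) (hj : j + i ≤ T) : M j ≤ b ^ i * M (j + i) := by
  induction i with
  | zero => simp
  | succ i ih =>
    have h1 := ih (by omega)
    have h2 := h (j + i) (by omega)
    have h3 : 0 ≤ b ^ i := by positivity
    calc M j ≤ b ^ i * M (j + i) := h1
      _ ≤ b ^ i * (b * M (j + i + 1)) := mul_le_mul_of_nonneg_left h2 h3
      _ = b ^ (i + 1) * M (j + (i + 1)) := by rw [pow_succ]; ring_nf

set_option maxHeartbeats 800000 in
/-- one slope -/
theorem slope (b B R α t K d d0 : ℝ) (N : ℕ) (hb : 1 ≤ b) (hB : 1 ≤ B) (hR : 0 < R)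
    (ht : 0 < t) (h4 : 4 * b * t ≤ 1) (hα : t ≤ Real.exp (-(2 * α))) (hK : 0 ≤ K) (hd : 0 ≤ d)
    (hd0 : 0 ≤ d0) : ∃ C : ℝ, 0 ≤ C ∧ ∀ (T : ℕ) (η : ℝ) (M ρ P : ℕ → ℝ) (j : ℕ), 0 ≤ η → j ≤ T →
    0 ≤ M j → (∀ k ≤ T, M k * t ^ k ≤ M j * t ^ j) →
    (∀ j < T, M j ≤ b * M (j + 1)) → M T ≤ d0 * Real.exp (α * T) →
    ρ T ≤ d * Real.exp (α * T) →
    (∀ j < T, ρ j ≤ 2 * b * t ^ 2 * ρ (j + 1) + K * M (j + 1)) →
    (∀ j ≤ T, P j ≤ K * B ^ (N * j) * η) →
    (∀ j i, j + i ≤ T → M j ≤ b ^ i * (P (j + i) + ρ (j + i) * ((t ^ 2) ^ i * R))) →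
    M 0 ≤ C * (B ^ (N * j) * η + Real.exp (-(α * T))) := by
  have hbt : b * t ≤ 1 / 4 := by linarith
  have ht1 : t ≤ 1 := by nlinarith
  obtain ⟨i, hi⟩ : ∃ i : ℕ, (1 / 4 : ℝ) ^ i * (R * (2 * K / t)) ≤ 1 / 2 := by
    have hp : 0 < R * (2 * K / t) + 1 := by positivity
    obtain ⟨i, hi⟩ := exists_pow_lt_of_lt_one (x := 1 / 2 / (R * (2 * K / t) + 1))
      (y := (1 / 4 : ℝ)) (by positivity) (by norm_num)
    refine ⟨i, ?_⟩
    rw [lt_div_iff₀ hp] at hi
    have : 0 < (1 / 4 : ℝ) ^ i := by positivity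
    nlinarith
  refine ⟨2 * b ^ i * K * B ^ (N * i) + 2 * R * d + (b / t) ^ i * d0, by positivity, ?_⟩
  intro T η M ρ P j hη hj hM hmax hch hT hρT hρ hP h5
  have hE : 0 < Real.exp (α * T) := Real.exp_pos _
  have hE' : 0 < Real.exp (-(α * T)) := Real.exp_pos _
  have htT : Real.exp (α * T) * t ^ T ≤ Real.exp (-(α * T)) := by
    have h1 : t ^ T ≤ Real.exp (-(2 * α)) ^ T := pow_le_pow_left₀ ht.le hα T
    rw [← Real.exp_nat_mul] at h1
    calc Real.exp (α * T) * t ^ T ≤ Real.exp (α * T) * Real.exp (T * -(2 * α)) :=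
          mul_le_mul_of_nonneg_left h1 hE.le
      _ = Real.exp (-(α * T)) := by rw [← Real.exp_add]; ring_nf
  have hM0 : M 0 ≤ M j * t ^ j := by simpa using hmax 0 (Nat.zero_le _)
  have hBj : 0 ≤ B ^ (N * j) * η := by positivity
  obtain ⟨I, rfl⟩ := Nat.exists_eq_add_of_le hj
  have c1 : 0 ≤ 2 * b ^ i * K * B ^ (N * i) := by positivity
  have c2 : 0 ≤ 2 * R * d := by positivity
  have c3 : 0 ≤ (b / t) ^ i * d0 := by positivity
  have htj : 0 < t ^ j := by positivity
  by_cases hI : i ≤ I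
  · set D := d * Real.exp (α * (j + I : ℕ)) * t ^ I with hD
    have hD0 : 0 ≤ D := by positivity
    set X := 2 * K / t * M j + D with hX
    have hX0 : 0 ≤ X := by positivity
    have hσ : ∀ k m, m + k = I → ρ (j + m) * t ^ m ≤ X := by
      intro k
      induction k with
      | zero =>
        intro m hm
        obtain rfl : m = I := by omega
        have : ρ (j + m) * t ^ m ≤ D := mul_le_mul_of_nonneg_right hρT (by positivity)
        have h2 : 0 ≤ 2 * K / t * M j := by positivity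
        linarith
      | succ k ih =>
        intro m hm
        have h1 := ih (m + 1) (by omega)
        have h2 := hρ (j + m) (by omega)
        have h3 := hmax (j + (m + 1)) (by omega)
        have h3' : M (j + m + 1) * t ^ (m + 1) ≤ M j := by
          have : M (j + (m + 1)) * t ^ (m + 1) * t ^ j ≤ M j * t ^ j := by
            rw [mul_assoc, ← pow_add, add_comm (m + 1) j]; exact h3
          exact le_of_mul_le_mul_right this htj
        have htm : 0 < t ^ m := by positivity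
        have h6 : K * M (j + m + 1) * t ^ m ≤ K / t * M j := by
          have : K * M (j + m + 1) * t ^ m = K / t * (M (j + m + 1) * t ^ (m + 1)) := by
            rw [pow_succ]; field_simp
          rw [this]; exact mul_le_mul_of_nonneg_left h3' (by positivity)
        have h7 : 2 * b * t ^ 2 * ρ (j + m + 1) * t ^ m ≤ X / 2 := by
          have e : 2 * b * t ^ 2 * ρ (j + m + 1) * t ^ m
              = 2 * (b * t) * (ρ (j + (m + 1)) * t ^ (m + 1)) := by
            rw [pow_succ t m, ← add_assoc]; ring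
          rw [e]
          have : 2 * (b * t) * (ρ (j + (m + 1)) * t ^ (m + 1)) ≤ 2 * (b * t) * X :=
            mul_le_mul_of_nonneg_left h1 (by positivity)
          nlinarith
        have h8 : ρ (j + m) * t ^ m ≤
            (2 * b * t ^ 2 * ρ (j + m + 1) + K * M (j + m + 1)) * t ^ m :=
          mul_le_mul_of_nonneg_right h2 htm.le
        have h9 : X / 2 + K / t * M j ≤ X := by
          have : 2 * K / t * M j = 2 * (K / t * M j) := by ring
          rw [hX, this]; linarith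
        linarith
    have h1 := hσ (I - i) i (by omega)
    have h2 := h5 j i (by omega)
    have h3 := hP (j + i) (by omega)
    have h4i : (b * t) ^ i ≤ (1 / 4) ^ i := pow_le_pow_left₀ (by positivity) hbt i
    have h41 : (1 / 4 : ℝ) ^ i ≤ 1 := pow_le_one₀ (by norm_num) (by norm_num)
    have h6 : b ^ i * (ρ (j + i) * ((t ^ 2) ^ i * R)) ≤ M j / 2 + R * D := by
      have e : b ^ i * (ρ (j + i) * ((t ^ 2) ^ i * R)) = (b * t) ^ i * R * (ρ (j + i) * t ^ i) := by
        rw [mul_pow, ← pow_mul, two_mul, pow_add]; ring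
      rw [e]
      have a1 : (b * t) ^ i * R * (ρ (j + i) * t ^ i) ≤ (b * t) ^ i * R * X :=
        mul_le_mul_of_nonneg_left h1 (by positivity)
      have a2 : (b * t) ^ i * R * X ≤ (1 / 4) ^ i * R * X := by gcongr
      have a3 : (1 / 4 : ℝ) ^ i * R * X
          = (1 / 4) ^ i * (R * (2 * K / t)) * M j + (1 / 4) ^ i * (R * D) := by rw [hX]; ring
      have a4 : (1 / 4 : ℝ) ^ i * (R * (2 * K / t)) * M j ≤ 1 / 2 * M j :=
        mul_le_mul_of_nonneg_right hi hM
      have a5 : (1 / 4 : ℝ) ^ i * (R * D) ≤ 1 * (R * D) :=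
        mul_le_mul_of_nonneg_right h41 (by positivity)
      linarith
    have h7 : b ^ i * P (j + i) ≤ b ^ i * K * B ^ (N * i) * (B ^ (N * j) * η) := by
      have : b ^ i * P (j + i) ≤ b ^ i * (K * B ^ (N * (j + i)) * η) :=
        mul_le_mul_of_nonneg_left h3 (by positivity)
      rw [mul_add, pow_add] at this
      linarith
    have h8 : M j ≤ 2 * b ^ i * K * B ^ (N * i) * (B ^ (N * j) * η) + 2 * R * D := by
      rw [mul_add] at h2; linarith
    have h9 : D * t ^ j ≤ d * Real.exp (-(α * (j + I : ℕ))) := by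
      have : D * t ^ j = d * (Real.exp (α * (j + I : ℕ)) * t ^ (j + I)) := by
        rw [hD, pow_add]; ring
      rw [this]; exact mul_le_mul_of_nonneg_left htT hd
    have htj1 : t ^ j ≤ 1 := pow_le_one₀ ht.le ht1
    have h10 : M j * t ^ j ≤ (2 * b ^ i * K * B ^ (N * i) * (B ^ (N * j) * η) + 2 * R * D) * t ^ j :=
      mul_le_mul_of_nonneg_right h8 htj.le
    have h11 : 2 * b ^ i * K * B ^ (N * i) * (B ^ (N * j) * η) * t ^ j
        ≤ 2 * b ^ i * K * B ^ (N * i) * (B ^ (N * j) * η) :=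
      mul_le_of_le_one_right (by positivity) htj1
    have h12 : 2 * R * D * t ^ j ≤ 2 * R * d * Real.exp (-(α * (j + I : ℕ))) := by
      have := mul_le_mul_of_nonneg_left h9 (show 0 ≤ 2 * R by positivity)
      linarith
    have p1 := mul_nonneg c1 hE'.le
    have p2 := mul_nonneg c2 hBj
    have p3 := mul_nonneg c3 hBj
    have p4 := mul_nonneg c3 hE'.le
    linarith
  · push Not at hI
    have h1 := chain_le hb hch j I le_rfl
    have h2 : M j ≤ b ^ I * (d0 * Real.exp (α * (j + I : ℕ))) :=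
      h1.trans (mul_le_mul_of_nonneg_left hT (by positivity))
    have h3 : M j * t ^ j ≤ (b / t) ^ I * d0 * (Real.exp (α * (j + I : ℕ)) * t ^ (j + I)) := by
      have : (b / t) ^ I * d0 * (Real.exp (α * (j + I : ℕ)) * t ^ (j + I))
          = b ^ I * (d0 * Real.exp (α * (j + I : ℕ))) * t ^ j := by
        rw [div_pow, pow_add]; field_simp
      rw [this]; exact mul_le_mul_of_nonneg_right h2 htj.le
    have h4 : (b / t) ^ I ≤ (b / t) ^ i :=
      pow_le_pow_right₀ (by rw [le_div_iff₀ ht]; linarith) hI.le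
    have h5 : (b / t) ^ I * d0 * (Real.exp (α * (j + I : ℕ)) * t ^ (j + I))
        ≤ (b / t) ^ i * d0 * Real.exp (-(α * (j + I : ℕ))) := by gcongr
    have p1 := mul_nonneg c1 hE'.le
    have p2 := mul_nonneg c2 hBj
    have p3 := mul_nonneg c3 hBj
    have p4 := mul_nonneg c1 hBj
    have p5 := mul_nonneg c2 hE'.le
    linarith

set_option maxHeartbeats 1600000 in
theorem numS : NumS := by
  intro q b B R α δ d K hq hq1 hb hB hR hα hδ hK hd
  set s := Real.sqrt q with hs
  have hs0 : 0 < s := Real.sqrt_pos.2 hq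
  have hs1 : s < 1 := by rw [hs, Real.sqrt_lt' one_pos]; simpa using hq1
  have hss : s ^ 2 = q := Real.sq_sqrt hq.le
  obtain ⟨N0, hN0⟩ := exists_pow_lt_of_lt_one
    (x := min (1 / (4 * b)) (Real.exp (-(2 * α)))) (y := s) (by positivity) hs1
  set lam := -Real.log s with hlam
  have hl0 : 0 < lam := by have := Real.log_neg hs0 hs1; linarith
  set u := Real.log B with hu
  have hu0 : 0 ≤ u := Real.log_nonneg hB
  have hlb : 0 ≤ Real.log b := Real.log_nonneg hb
  obtain ⟨L, hL⟩ := exists_nat_gt (2 * u * (Real.log b + 2 * α) / (lam * δ))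
  have hL0 : 0 < L := by
    have : (0 : ℝ) < L := lt_of_le_of_lt (by positivity) hL
    exact_mod_cast this
  have hLr : (1 : ℝ) ≤ L := by exact_mod_cast hL0
  have hsl : ∀ n : ℕ, ∃ C : ℝ, 0 ≤ C ∧ (N0 ≤ n + 1 → ∀ (T : ℕ) (η : ℝ) (M ρ P : ℕ → ℝ) (j : ℕ),
      0 ≤ η → j ≤ T → 0 ≤ M j → (∀ k ≤ T, M k * (s ^ (n + 1)) ^ k ≤ M j * (s ^ (n + 1)) ^ j) →
      (∀ j < T, M j ≤ b * M (j + 1)) → M T ≤ d 0 * Real.exp (α * T) →
      ρ T ≤ d (n + 1) * Real.exp (α * T) →
      (∀ j < T, ρ j ≤ 2 * b * (s ^ (n + 1)) ^ 2 * ρ (j + 1) + K n * M (j + 1)) →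
      (∀ j ≤ T, P j ≤ K n * B ^ ((n + 1) * j) * η) →
      (∀ j i, j + i ≤ T →
        M j ≤ b ^ i * (P (j + i) + ρ (j + i) * (((s ^ (n + 1)) ^ 2) ^ i * R ^ (n + 1)))) →
      M 0 ≤ C * (B ^ ((n + 1) * j) * η + Real.exp (-(α * T)))) := by
    intro n
    by_cases hn : N0 ≤ n + 1
    · have h1 : s ^ (n + 1) ≤ s ^ N0 := pow_le_pow_of_le_one hs0.le hs1.le hn
      have h2 : s ^ (n + 1) ≤ 1 / (4 * b) := h1.trans (hN0.le.trans (min_le_left _ _))
      have h3 : s ^ (n + 1) ≤ Real.exp (-(2 * α)) := h1.trans (hN0.le.trans (min_le_right _ _))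
      rw [le_div_iff₀ (by positivity)] at h2
      obtain ⟨C, hC, h⟩ := slope b B (R ^ (n + 1)) α (s ^ (n + 1)) (K n) (d (n + 1)) (d 0) (n + 1)
        hb hB (by positivity) (by positivity) (by linarith) h3 (hK n) (hd _) (hd 0)
      exact ⟨C, hC, fun _ => h⟩
    · exact ⟨0, le_rfl, fun h => absurd h hn⟩
  choose Cn hCn hsl using hsl
  set n0 := 2 ^ L * (N0 + 1) with hn0
  set C1 := Real.exp (2 * u * d 0 / lam) with hC1
  have hC11 : 1 ≤ C1 := Real.one_le_exp (by have := hd 0; positivity)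
  have hS : 0 ≤ ∑ n ∈ range (n0 + 1), Cn n := sum_nonneg fun n _ => hCn n
  refine ⟨n0, 1 + C1 * ∑ n ∈ range (n0 + 1), Cn n, by positivity, ?_⟩
  intro T η M ρ P hη hch hT hρT hρ hP h5
  have hE' : 0 < Real.exp (-(α * T)) := Real.exp_pos _
  have hδT : 1 ≤ Real.exp (δ * T) := Real.one_le_exp (by positivity)
  have hCS : 0 ≤ C1 * ∑ n ∈ range (n0 + 1), Cn n := by positivity
  by_cases hM0 : M 0 ≤ Real.exp (-(α * T))
  · have h1 : 1 ≤ (1 + C1 * ∑ n ∈ range (n0 + 1), Cn n) * Real.exp (δ * T) := by nlinarith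
    nlinarith
  push Not at hM0
  have hM00 : 0 < M 0 := hE'.trans hM0
  have hpos : ∀ j ≤ T, 0 < M j := by
    intro j hj
    have h1 := chain_le hb hch 0 j (by omega)
    rw [zero_add] at h1
    have h2 : 0 < b ^ j := by positivity
    by_contra hc
    push Not at hc
    nlinarith
  have hex : ∀ N : ℕ, ∃ j ≤ T, ∀ k ≤ T, M k * (s ^ N) ^ k ≤ M j * (s ^ N) ^ j := by
    intro N
    obtain ⟨j, hj, h⟩ := exists_max_image (range (T + 1)) (fun k => M k * (s ^ N) ^ k)
      ⟨0, by simp⟩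
    exact ⟨j, by simpa [Nat.lt_succ_iff] using hj, fun k hk => h k (by simpa [Nat.lt_succ_iff])⟩
  choose J hJ hJm using hex
  set Nl : ℕ → ℕ := fun l => 2 ^ l * (N0 + 1) with hNl
  have hlog : ∀ (N k : ℕ), k ≤ T →
      Real.log (M k * (s ^ N) ^ k) = Real.log (M k) - lam * (N * k) := by
    intro N k hk
    rw [Real.log_mul (hpos k hk).ne' (by positivity), Real.log_pow, Real.log_pow, hlam]; ring
  have hcmp : ∀ (N k : ℕ), k ≤ T → Real.log (M k) - lam * (N * k)
      ≤ Real.log (M (J N)) - lam * (N * J N) := by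
    intro N k hk
    rw [← hlog N k hk, ← hlog N _ (hJ N)]
    exact Real.log_le_log (mul_pos (hpos k hk) (by positivity)) (hJm N k hk)
  obtain ⟨l, hl, hal⟩ := abel_ex
    (fun l => Real.log (M (J (Nl l))) - lam * (Nl l * J (Nl l)) - Real.log (M 0))
    (fun l => lam / 2 * (Nl (l + 1) * J (Nl (l + 1)))) L hL0 (by
      intro l _
      have h1 := hcmp (Nl l) (J (Nl (l + 1))) (hJ _)
      have h2 : (Nl (l + 1) : ℝ) = 2 * Nl l := by simp only [hNl]; push_cast; ring
      simp only [h2]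
      nlinarith) (by
      have h1 := hcmp (Nl L) 0 (Nat.zero_le _)
      simp only [Nat.cast_zero, mul_zero, sub_zero] at h1
      linarith)
  have hz : Real.log (M (J (Nl 0))) - lam * (Nl 0 * J (Nl 0)) - Real.log (M 0)
      ≤ (Real.log b + 2 * α) * T + d 0 := by
    set j := J (Nl 0)
    have hj : j ≤ T := hJ _
    have h1 := chain_le hb hch j (T - j) (by omega)
    rw [show j + (T - j) = T by omega] at h1
    have h2 : b ^ (T - j) ≤ b ^ T := pow_le_pow_right₀ hb (by omega)
    have h3 : d 0 ≤ Real.exp (d 0) := by have := Real.add_one_le_exp (d 0); linarith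
    have hMT := hpos T le_rfl
    have h4 : M j ≤ b ^ T * (Real.exp (d 0) * Real.exp (α * T)) := by
      calc M j ≤ b ^ (T - j) * M T := h1
        _ ≤ b ^ T * (Real.exp (d 0) * Real.exp (α * T)) := by
          gcongr
          exact hT.trans (mul_le_mul_of_nonneg_right h3 (Real.exp_pos _).le)
    have h6 := Real.log_le_log (hpos j hj) h4
    rw [Real.log_mul (by positivity) (by positivity), Real.log_pow, ← Real.exp_add,
      Real.log_exp] at h6
    have h7 := Real.log_le_log hE' hM0.le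
    rw [Real.log_exp] at h7
    have h8 : 0 ≤ lam * ((Nl 0 : ℝ) * j) := by positivity
    nlinarith
  obtain ⟨n, hn⟩ : ∃ n, Nl (l + 1) = n + 1 := ⟨Nl (l + 1) - 1, by
    have : 0 < Nl (l + 1) := by simp only [hNl]; positivity
    omega⟩
  have hnn : n + 1 ≤ n0 := by
    rw [← hn, hn0]
    exact Nat.mul_le_mul_right _ (Nat.pow_le_pow_right (by norm_num) hl)
  have hN0n : N0 ≤ n + 1 := by
    rw [← hn]
    have : 1 ≤ 2 ^ (l + 1) := Nat.one_le_two_pow
    simp only [hNl]; nlinarith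
  rw [hn] at hal
  set j := J (n + 1) with hj
  have hq' : (s ^ (n + 1)) ^ 2 = q ^ (n + 1) := by rw [← hss, ← pow_mul, ← pow_mul, mul_comm]
  have main := hsl n hN0n T η M (ρ n) (P n) j hη (hJ _) (hpos _ (hJ _)).le (hJm _) hch hT
    (hρT n (by omega)) (by rw [hq']; exact hρ n (by omega)) (hP n (by omega)) (by
      intro j i h
      have := h5 n (by omega) j i h
      rw [hq', ← pow_mul, mul_comm (n + 1) i, pow_mul, ← mul_pow]; exact this)
  have hBj : B ^ ((n + 1) * j) ≤ C1 * Real.exp (δ * T) := by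
    have e : B ^ ((n + 1) * j) = Real.exp (u * ((n + 1 : ℕ) * j)) := by
      rw [hu, mul_comm (Real.log B), ← Nat.cast_mul, Real.exp_nat_mul, Real.exp_log (by linarith)]
    rw [e, hC1, ← Real.exp_add]
    apply Real.exp_le_exp.2
    set m : ℝ := (n + 1 : ℕ) * j with hm
    have hm0 : 0 ≤ m := by positivity
    have h1 : lam / 2 * m * L ≤ (Real.log b + 2 * α) * T + d 0 := by
      rw [le_div_iff₀ (by positivity)] at hal; exact hal.trans hz
    rw [div_lt_iff₀ (by positivity)] at hL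
    have hT0 : (0 : ℝ) ≤ T := by positivity
    have h2 : lam * L * (u * m) ≤ lam * L * (2 * u * d 0 / lam + δ * T) := by
      have a1 : lam * L * (u * m) = 2 * u * (lam / 2 * m * L) := by ring
      have a2 : 2 * u * (lam / 2 * m * L) ≤ 2 * u * ((Real.log b + 2 * α) * T + d 0) :=
        mul_le_mul_of_nonneg_left h1 (by positivity)
      have a3 : lam * L * (2 * u * d 0 / lam + δ * T) = L * (2 * u * d 0) + L * (lam * δ) * T := by
        field_simp
      have a4 : 2 * u * (Real.log b + 2 * α) * T ≤ L * (lam * δ) * T :=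
        mul_le_mul_of_nonneg_right hL.le hT0
      have a5 : 1 * (2 * u * d 0) ≤ L * (2 * u * d 0) :=
        mul_le_mul_of_nonneg_right hLr (by have := hd 0; positivity)
      linarith
    exact le_of_mul_le_mul_left h2 (by positivity)
  have hCle : Cn n ≤ ∑ n ∈ range (n0 + 1), Cn n :=
    single_le_sum (f := Cn) (fun n _ => hCn n) (mem_range.2 (by omega))
  have h1 : B ^ ((n + 1) * j) * η + Real.exp (-(α * T))
      ≤ C1 * Real.exp (δ * T) * (η + Real.exp (-(α * T))) := by
    have a1 : B ^ ((n + 1) * j) * η ≤ C1 * Real.exp (δ * T) * η := mul_le_mul_of_nonneg_right hBj hη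
    have a2 : 1 ≤ C1 * Real.exp (δ * T) := by nlinarith
    nlinarith
  have h2 : 0 ≤ C1 * Real.exp (δ * T) * (η + Real.exp (-(α * T))) := by positivity
  calc M 0 ≤ Cn n * (B ^ ((n + 1) * j) * η + Real.exp (-(α * T))) := main
    _ ≤ (∑ n ∈ range (n0 + 1), Cn n) * (C1 * Real.exp (δ * T) * (η + Real.exp (-(α * T)))) :=
      mul_le_mul hCle h1 (by positivity) hS
    _ ≤ _ := by
      have : 0 ≤ Real.exp (δ * T) * (η + Real.exp (-(α * T))) := by positivity
      nlinarith

end Crest.Agent.N221.PS
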